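import Vale.Agent.P352X.R.CONK.Spec
import Vale.Agent.P352Z.P352X.Main0

open Vale.Agent.P352G

/-!
# P352X, block CONK: vocabulary and sub-rows (see notes/P352/conk.md)
-/

set_option linter.all false

open MeasureTheory Filter Topology
open scoped SchwartzMap ComplexConjugate ENNReal ContDiff

namespace Vale.Agent.P352X.CK

open Vale.Agent.P352 Vale.Agent.P352.GF Vale.Agent.P352.BW Vale.Agent.P352.H246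
open Vale.Agent.P352.H496 Vale.Agent.P352.H755 Vale.Agent.P352.H15
open UniformSpace (Completion)
open Complex (I)

noncomputable section

/-! ## vocabulary -/

variable {D : Type*} [NormedAddCommGroup D] [InnerProductSpace ℂ D] [GrD D]

variable (c : CtxZ D)

/-- the statement of row `WK` for a given kernel -/
def IsWZ (W : I2 → I2 → S2 →L[ℂ] Completion D) : Prop :=
  (∀ K M (f g : Sch) (F : S2), (∀ x y, F (x, y) = f x * g y) →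
    W K M F = ((c.T K.1 K.2 (ev f) (c.T M.1 M.2 (ev g) c.Q.vac) : D) : Completion D)) ∧
  ∀ s L a K M (F G : S2), 0 < s → IsLor L → (∀ x y, G (x, y) = F (sim s L a x, sim s L a y)) →
    W K M F = ∑ K', ∑ M', (L2 L K' K * L2 L M' M) • Ug c.Q s L a (W K' M' G)

/-- `T_aa` -/
def TaaZ (h : Fn) (v : D) : D := c.Tf (hk va va h) v

/-- the component orthogonal to the vacuum -/
def perpZ (v : Completion D) : Completion D := v - inner ℂ c.Om v • c.Om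

/-- covariance of the type of `T_aa Θ`, up to multiples of the vacuum -/
structure CvZ (R : S2 →L[ℂ] Completion D) : Prop where
  tra : ∀ a (F G : S2), (∀ x y, G (x, y) = F (x + a, y + a)) →
    ∃ κ : ℂ, R F = Ut c.Q a (R G) + κ • c.Om
  sca : ∀ r s (F G : S2), 0 < r → 0 < s → (∀ x y, G (x, y) = F (scp r s x, scp r s y)) →
    ∃ κ : ℂ, R F = ((s / r : ℝ) : ℂ) • Usc c.Q r s (R G) + κ • c.Om

/-- bounds for `w`, `M^b w`, `P_b w`, `M^b P_b w` -/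
structure LwZ (w : Completion D) (Λ : ℝ) : Prop where
  dg : Dm (Gb c.Q) w
  dp : Dm (Pb c.Q) w
  dgp : Dm (Gb c.Q) (gen (Pb c.Q) w)
  n0 : ‖w‖ ≤ Λ
  ng : ‖gen (Gb c.Q) w‖ ≤ Λ
  np : ‖gen (Pb c.Q) w‖ ≤ Λ
  ngp : ‖gen (Gb c.Q) (gen (Pb c.Q) w)‖ ≤ Λ

/-- bounds for the powers of `P_b` -/
def PkZ (k : ℕ) (ψ : Completion D) (Λ : ℝ) : Prop :=
  (∀ j < k, Dm (Pb c.Q) ((gen (Pb c.Q))^[j] ψ)) ∧ ∀ j ≤ k, ‖(gen (Pb c.Q))^[j] ψ‖ ≤ Λ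

/-- the domains of `K`, `M`, `P` -/
def DKZ (ψ : Completion D) : Prop := Dm c.SK ψ ∧ (∀ i, Dm (Mi c.Q i) ψ) ∧ Dm (Pa c.Q) ψ

/-- smooth vectors for the group generated by `B`, `P_b`, `M^b` -/
def SmZ (v : Completion D) : Prop := ContDiff ℝ ∞ fun q => c.gq q v

/-- the sum of the norms of the derivatives of order at most `k` -/
def nqZ (k : ℕ) (v : Completion D) : ℝ :=
  ∑ j ∈ Finset.range (k + 1), ‖iteratedFDeriv ℝ j (fun q => c.gq q v) 0‖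

/-- the error term of row `CONK` -/
def ErrZ (w : I2 → I2 → S2 →L[ℂ] Completion D) (κ f : P3 → ℝ) (ρ θ1 θ : ℝ → ℝ) (δ L : ℝ)
    (ψ : Completion D) : ℂ :=
  inner ℂ (w0L w (pairF sq2 κ f ρ θ1 δ L)) ψ - (∫ t, ρ t : ℝ) * c.AbK f (abv θ1 θ δ) ψ

/-- the data of row `CONK`; the crossing leg is supported in `al < a0`, `-u0 < be` -/
structure DatZ (w W : I2 → I2 → S2 →L[ℂ] Completion D) (κ f : P3 → ℝ) (ρ θ1 θ : ℝ → ℝ)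
    (a0 u0 : ℝ) : Prop where
  tp : TP2 c.Q c.T false w
  isW : IsWZ c W
  cut : Cut κ
  tf : Tst f
  tr : Tst ρ
  sr : tsupport ρ ⊆ Set.Icc (-1 / 2) (1 / 2)
  t1 : Tst θ1
  bump : Bump θ
  ha : a0 = -1
  hu : 0 < u0
  sf : tsupport f ⊆ {y | y.1 < a0}
  s1 : tsupport θ1 ⊆ Set.Ioi (-u0)

/-- a good operator below the plane and to the right of the crossing leg -/
structure RXZ (a0 u0 : ℝ) (X : Completion D →L[ℂ] Completion D) : Prop where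
  loc : ∃ y r, 0 < r ∧ dc y r ⊆ {z | be z < -u0 ∧ a0 + 2 < al z} ∧ X ∈ c.N (dc y r)
  good : c.Good X
  perp : inner ℂ c.Om (X c.Om) = 0
  ev : Ev X

/-- the spectator `ψ` can be moved past the two legs -/
structure TriZ (f : P3 → ℝ) (θ1 : ℝ → ℝ) (a u0 : ℝ) (ψ : Completion D)
    (wR wL : Fin 4 → Completion D) : Prop where
  right : ∀ j h, In Set.univ h →
    inner ℂ ((c.Thf (pr (wt (pol j) f) θ1) (TaaZ c h c.Q.vac) : D) : Completion D) ψ =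
      inner ℂ ((TaaZ c h c.Q.vac : D) : Completion D) (wR j)
  left : ∀ j h, In {z | al z < -a ∧ -u0 < be z} h →
    inner ℂ ((TaaZ c h (c.Thf (pr (wt (pol j) f) θ1) c.Q.vac) : D) : Completion D) ψ =
      inner ℂ (wL j) ((TaaZ c (bar h) c.Q.vac : D) : Completion D)

/-! ## rows without field theory -/

/-! ## tools -/

/-- row NORM: norms of vectors created by one field -/
def NORMZ : Prop := ∃ C : ℝ, 0 ≤ C ∧ ∀ (g : P3 → ℂ) (φ : ℝ → ℂ), Dc g → Dc φ →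
  ‖c.Tv (hk va va (pf g φ))‖ ≤ C * n2 (da (da g)) * n2 φ ∧
  (∀ s, 0 < s → c.nu (c.Tv (hk va va (pf g φ))) {p | al p < s} ≤
    ENNReal.ofReal ((C * n2 (da (da g)) * ∫ t, ‖φ t‖) ^ 2 * s)) ∧
  ‖c.Th (pf g φ)‖ ≤ C * n2 (da g) * n2 (deriv φ)

/-- row TAIL: far annuli of the plane, uniformly in the profile -/
def TAILZ : Prop := ∃ κ : ℝ, 0 < κ ∧ ∀ g, Tst g → ∃ C : ℝ, 0 ≤ C ∧ ∀ ρ (A : ℝ) w (Λ : ℝ), Tst ρ →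
  tsupport ρ ⊆ Set.Icc (-1) 1 → 1 ≤ A → LwZ c w Λ →
  ‖inner ℂ (c.Tv (hk va va (pr (kL g A) ρ))) w‖ ≤ C * A ^ (-1 - κ) * (∫ t, |ρ t|) * Λ

/-- row CV: covariance and orderings -/
structure CVZ : Prop where
  w0 : ∀ (w : I2 → I2 → S2 →L[ℂ] Completion D) F, w0 w F = w0L w F
  cvw : ∀ e w, TP2 c.Q c.T e w → CvZ c (w0L w)
  cvW : ∀ W, IsWZ c W → CvZ c (w0L W) ∧ CvZ c (w1L W)
  late : ∀ w W (F : S2), TP2 c.Q c.T false w → IsWZ c W → tsupport F ⊆ U1 → w0L w F = w1L W F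
  early : ∀ w W (F : S2), TP2 c.Q c.T false w → IsWZ c W → tsupport F ⊆ U2 → w0L w F = w0L W F
  prod : ∀ W (h g : Fn) (F : S2), IsWZ c W → IsTest h → IsTest g → (∀ x y, F (x, y) = h x * g y) →
    w0L W F = ((TaaZ c h (c.Thf g c.Q.vac) : D) : Completion D) ∧
    w1L W F = ((c.Thf g (TaaZ c h c.Q.vac) : D) : Completion D)
  pair : ∀ W (κ f : P3 → ℝ) (ρ θ1 : ℝ → ℝ) (δ L : ℝ), IsWZ c W → Tst κ → Tst f → Tst ρ → Tst θ1 →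
    0 < δ → 0 < L →
    w0L W (pairF sq2 κ f ρ θ1 δ L) = ∑ j, ((TaaZ c (pr (wt (qol j) (kL κ L)) (dlt δ ρ))
      (c.Thf (pr (wt (pol j) f) θ1) c.Q.vac) : D) : Completion D) ∧
    w1L W (pairF sq2 κ f ρ θ1 δ L) = ∑ j, ((c.Thf (pr (wt (pol j) f) θ1)
      (TaaZ c (pr (wt (qol j) (kL κ L)) (dlt δ ρ)) c.Q.vac) : D) : Completion D)

/-- row FLOW: thin tubes -/
def FLOWZ : Prop := ∀ (R : S2 →L[ℂ] Completion D) (m : R2 → ℝ) (κ f : P3 → ℝ) (ρ θ1 θ : ℝ → ℝ)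
  (A : ℝ), CvZ c R → Tst m → Tst κ → Tst f → Tst ρ → Tst θ1 → Tst θ → 0 < A →
  Tendsto (fun δ : ℝ => perpZ c (R (pairF (sqm m (Real.sqrt (δ * A))) κ f ρ (thn θ1 θ δ) δ A)))
    (𝓝[>] 0) (𝓝 0)

/-- row NEAR: the near part, uniformly in the width of the profile -/
def NEARZ : Prop := ∀ R : S2 →L[ℂ] Completion D, CvZ c R → ∃ k m : ℕ, ∀ (κ f : P3 → ℝ) (θ1 : ℝ → ℝ),
  Tst κ → Tst f → Tst θ1 → ∃ C : ℝ, 0 ≤ C ∧ ∀ ρ (δ A : ℝ) ψ (Λ : ℝ), Tst ρ →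
  tsupport ρ ⊆ Set.Icc (-1) 1 → 0 < δ → δ ≤ 1 → 1 ≤ A → inner ℂ c.Om ψ = 0 → PkZ c k ψ Λ →
  ‖inner ℂ (R (pairF sq2 κ f ρ θ1 δ A)) ψ‖ ≤ C * A ^ m * (∫ t, |ρ t|) * Λ

/-- row DT: `Θ(g φ)` and `Tht(g^, φ)` -/
def DTZ : Prop := ∀ ell c0, EllZ c ell c0 → ∀ g : P3 → ℂ, Dc g → MemLp (ft3 g) 2 m3 ∧
  ∃ C : ℝ, 0 ≤ C ∧ ∀ φ, Tst φ → ‖c.Th (pf g (cx φ)) - Tht ell (ft3 g) φ‖ ≤
    C * (n2 (cx fun t => t * deriv φ t) + n2 (cx φ))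

/-- row K0T: the geometric part `K0 - 2 x.M + |x|^2 P` on `Θ(g φ)` is bounded -/
def K0TZ : Prop := ∀ f : P3 → ℝ, Tst f → ∃ C : ℝ, 0 ≤ C ∧ ∀ φ, Tst φ → ∃ χ,
  Gn c.S0 (c.Th (pr f φ)) (χ + (2 : ℂ) • ∑ i, gen (Mi c.Q i) (c.Th (pr (fun y => y.2 i * f y) φ)) -
    gen (Pa c.Q) (c.Th (pr (fun y => d2 y.2 y.2 * f y) φ))) ∧
  ‖χ‖ ≤ C * (n2 (cx (deriv fun t => t * φ t)) + n2 (cx (deriv fun t => t ^ 2 * φ t)))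

/-- row AB: the form above the plane is bounded -/
def ABZ : Prop := ∀ (f : P3 → ℝ) (θ1 θ : ℝ → ℝ), Tst f → Tst θ1 → Bump θ →
  ∃ C δ0 : ℝ, 0 ≤ C ∧ 0 < δ0 ∧ ∀ δ ψ, 0 < δ → δ ≤ δ0 → DKZ c ψ →
    ‖c.AbK f (abv θ1 θ δ) ψ‖ ≤ C * (‖ψ‖ + ‖gen c.SK ψ‖)

/-- row SMV: smooth vectors and good operators -/
structure SMVZ : Prop where
  sub : ∀ v w, SmZ c v → SmZ c w → SmZ c (v - w)
  dom : ∀ v, SmZ c v → Dm (Bo c.Q) v ∧ Dm (Pb c.Q) v ∧ Dm (Gb c.Q) v ∧ SmZ c (gen (Bo c.Q) v) ∧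
    SmZ c (gen (Pb c.Q) v) ∧ SmZ c (gen (Gb c.Q) v)
  lw : ∀ v, SmZ c v → LwZ c v (nqZ c 2 v) ∧ ‖gen (Bo c.Q) v‖ ≤ nqZ c 1 v ∧ ∀ k, PkZ c k v (nqZ c k v)
  adj : ∀ X, c.Good X → c.Good (star X)
  scal : ∀ X (a : ℂ), c.Good X → c.Good (X - a • 1)
  app : ∀ X v, c.Good X → SmZ c v → SmZ c (X v)
  vac : SmZ c c.Om
  lwx : ∀ X, c.Good X → ∃ C : ℝ, 0 ≤ C ∧ ∀ v Λ, LwZ c v Λ → LwZ c (X v) (C * Λ)
  fld : ∀ y r (f : Sch) (m : ℕ) (η : ℝ), In (dc y r) (ev f) → 0 < η → ∃ (f' : Sch)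
    (X : ℕ → Completion D →L[ℂ] Completion D), In (dc y r) (ev f') ∧ sn m (f' - f) < η ∧
    (∀ n, X n ∈ c.N (dc y r) ∧ c.Good (X n) ∧ inner ℂ c.Om (X n c.Om) = 0 ∧ Ev (X n)) ∧
    ∀ (v : D) (k : ℕ),
      Tendsto (fun n => nqZ c k (X n v - (c.Thf (ev f') v : D))) atTop (𝓝 0) ∧
      Tendsto (fun n => nqZ c k (star (X n) v - (c.Thf (bar (ev f')) v : D))) atTop (𝓝 0)

/-- row LWF: the same bounds for vectors created by fields -/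
structure LWFZ : Prop where
  one : ∃ (m : ℕ) (C : ℝ), 0 ≤ C ∧ ∀ g : Sch, LwZ c (c.Th (ev g)) (C * sn m g)
  pk : ∀ k, ∃ (m : ℕ) (C : ℝ), 0 ≤ C ∧ ∀ g : Sch, PkZ c k (c.Th (ev g)) (C * sn m g)
  two : ∃ (m : ℕ) (C : ℝ), 0 ≤ C ∧ ∀ f g : Sch,
    LwZ c ((c.Thf (ev f) (c.Thf (ev g) c.Q.vac) : D) : Completion D) (C * sn m f * sn m g)
  thin : ∀ (f : P3 → ℝ) (θ1 θ : ℝ → ℝ) (m : ℕ), Tst f → Tst θ1 → Tst θ → ∃ C : ℝ, 0 ≤ C ∧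
    ∀ δ, 0 < δ → δ ≤ 1 → ∃ g : Sch, ev g = pr f (thn θ1 θ δ) ∧ sn m g ≤ C * δ⁻¹ ^ m

/-- row KP: pairs in a double cone below the plane and the operators `K_y` -/
structure KPZ : Prop where
  dom : ∀ y r (u0 d0 : ℝ), 0 < r → 0 < u0 → 0 < d0 → dc y r ⊆ {z | be z < -u0 ∧ d0 < al z} →
    ∃ C : ℝ, 0 ≤ C ∧ ∀ ψ ψ', Pr (c.N (dc y r)) c.Om ψ ψ' → Dm (Bo c.Q) ψ →
      DKZ c ψ ∧ ‖gen c.SK ψ‖ ≤ C * (‖ψ‖ + ‖ψ'‖ + ‖gen (Bo c.Q) ψ‖)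
  shift : ∀ y r (u0 d0 : ℝ) X (x : R2), 0 < r → 0 < u0 → 0 < d0 →
    dc y r ⊆ {z | be z < -u0 ∧ d0 < al z} → X ∈ c.N (dc y r) → c.Good X →
    ContinuousOn (fun u : ℝ => gen (c.Ky (tv x + u • vb)) (X c.Om)) (Set.Ioo (-u0) u0) ∧
    ∀ η > 0, ∀ᶠ u in 𝓝 (0 : ℝ),
      ‖gen (c.Ky (tv x + u • vb)) (X c.Om) - gen (c.Ky (tv x)) (X c.Om)‖ ≤ η * Real.sqrt |u|

/-- row TRI: hermiticity and locality -/
structure TRIZ : Prop where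
  herm : ∀ h (u v : D), IsTest h → inner ℂ (TaaZ c h u) v = inner ℂ u (TaaZ c (bar h) v) ∧
    inner ℂ (c.Thf h u) v = inner ℂ u (c.Thf (bar h) v)
  com : ∀ (a u0 : ℝ) g h (v : D), In {z | al z < a ∧ -u0 < be z} h →
    In {z | be z ≤ -u0 ∧ a ≤ al z} g → c.Thf g (c.Thf h v) = c.Thf h (c.Thf g v) ∧
      c.Thf g (TaaZ c h v) = TaaZ c h (c.Thf g v)
  op : ∀ (a u0 : ℝ) y r X h (u v : D), dc y r ⊆ {z | be z < -u0 ∧ a < al z} → X ∈ c.N (dc y r) →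
    In {z | al z < a ∧ -u0 < be z} h →
    inner ℂ ((c.Thf (bar h) u : D) : Completion D) (X (v : Completion D)) =
      inner ℂ (u : Completion D) (X ((c.Thf h v : D) : Completion D)) ∧
    inner ℂ ((TaaZ c (bar h) u : D) : Completion D) (X (v : Completion D)) =
      inner ℂ (u : Completion D) (X ((TaaZ c h v : D) : Completion D))
  fld : ∀ (f : P3 → ℝ) (θ1 : ℝ → ℝ) (a u0 : ℝ) g, Tst f → Tst θ1 →
    In {z | be z ≤ -u0 ∧ -a ≤ al z} g → TriZ c f θ1 a u0 (c.Th g)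
      (fun j => (c.Thf (pr (wt (pol j) f) θ1) (c.Thf g c.Q.vac) : D))
      (fun j => (c.Thf (bar g) (c.Thf (pr (wt (pol j) f) θ1) c.Q.vac) : D))
  opt : ∀ (f : P3 → ℝ) (θ1 : ℝ → ℝ) (a a0 u0 : ℝ) y r X, Tst f → Tst θ1 →
    tsupport f ⊆ {y | y.1 < a0} → tsupport θ1 ⊆ Set.Ioi (-u0) → -a ≤ a0 →
    dc y r ⊆ {z | be z < -u0 ∧ a0 < al z} → X ∈ c.N (dc y r) → TriZ c f θ1 a u0 (X c.Om)
      (fun j => X (c.Th (pr (wt (pol j) f) θ1))) (fun j => star X (c.Th (pr (wt (pol j) f) θ1)))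

/-- row `BP` for `a0 = 0` -/
def BP0Z : Prop := ∀ (u0 d0 : ℝ) y1 r1 X f1 κ ρ (y : R2), 0 < d0 → 0 < r1 →
  dc y1 r1 ⊆ {z | be z < -u0 ∧ d0 < al z} → X ∈ c.N (dc y1 r1) → c.Good X → Ev X →
  In {z | u0 < be z ∧ al z < -d0} f1 → Cut κ → Tst ρ → tsupport ρ ⊆ Set.Ioo (-u0) u0 →
  Tendsto (fun L => inner ℂ ((c.Tf (hk va va (pr (fun q => d2 (q.2 - y) (q.2 - y) * kL κ L q) ρ))
      (c.Thf (bar f1) c.Q.vac) : D) : Completion D) (X c.Om)) atTop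
    (𝓝 (∫ u, (ρ u : ℂ) * inner ℂ (c.Th (bar f1)) (gen (c.Ky (tv y + u • vb)) (X c.Om))))

/-- row `CONK` for a crossing leg to the left of the centre of the cut off -/
def CONK0Z : Prop := ∀ w (κ f : P3 → ℝ) (ρ θ1 θ : ℝ → ℝ) (f3 : Fn),
  TP2 c.Q c.T false w → Cut κ → Tst f → tsupport f ⊆ {y | y.1 < -1} → Tst ρ →
  tsupport ρ ⊆ Set.Icc (-1 / 2) (1 / 2) → Tst θ1 →
  Bump θ → In {z | be z < 0} f3 → ∀ η > 0, ∀ᶠ δ in 𝓝[>] (0 : ℝ), ∀ᶠ L in atTop,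
    ‖inner ℂ (w0 w (pairF (fun x => d2 x x) κ f ρ θ1 δ L)) (c.Th f3) -
      (∫ t, ρ t : ℝ) * c.AbK f (abv θ1 θ δ) (c.Th f3)‖ ≤ η

/-- the tools of the block -/
structure ToolsZ : Prop extends T3Z c where
  prim : PRIM
  ann : ANN
  norm : NORMZ c
  tail : TAILZ c
  cv : CVZ c
  smv : SMVZ c
  lwf : LWFZ c
  kp : KPZ c
  tri : TRIZ c

/-! ## the proof -/

/-- row A1: the part above the plane, and the order `Θ T` -/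
structure A1Z : Prop where
  above : ∀ w W κ f ρ θ1 θ a0 u0 X, DatZ c w W κ f ρ θ1 θ a0 u0 → RXZ c a0 u0 X → ∀ η > 0,
    ∀ᶠ δ in 𝓝[>] (0 : ℝ), ∀ᶠ L in atTop,
      ‖inner ℂ (w0L w (pairF sq2 κ f ρ (abv θ1 θ δ) δ L)) (X c.Om) -
        (∫ t, ρ t : ℝ) * c.AbK f (abv θ1 θ δ) (X c.Om)‖ ≤ η
  order : ∀ w W κ f ρ θ1 θ a0 u0 X (φ : ℝ → ℝ) (δ : ℝ), DatZ c w W κ f ρ θ1 θ a0 u0 →
    RXZ c a0 u0 X → Tst φ → tsupport φ ⊆ Set.Ioi (-u0) → 0 < δ →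
    Tendsto (fun L => inner ℂ (w1L W (pairF sq2 κ f ρ φ δ L)) (X c.Om)) atTop (𝓝 0)

/-- row A3: the far tubes -/
def A3Z : Prop := ∀ w W κ f ρ θ1 θ a0 u0 X (g : P3 → ℝ) (c0 : ℝ), DatZ c w W κ f ρ θ1 θ a0 u0 →
  RXZ c a0 u0 X → Tst g → 0 < c0 → tsupport g ⊆ {y | y.1 ≤ -c0} →
  ∃ C σ A0 δ0 : ℝ, 0 < σ ∧ 0 < δ0 ∧ ∀ δ A, 0 < δ → δ ≤ δ0 → A0 ≤ A →
    ‖inner ℂ ((w0L w - w1L W) (pairF sq2 g f ρ (thn θ1 θ δ) δ A)) (X c.Om)‖ ≤ C * A ^ (-σ)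

/-- row AA: the statement for good operators -/
def AAZ : Prop := ∀ w W κ f ρ θ1 θ a0 u0 X, DatZ c w W κ f ρ θ1 θ a0 u0 → RXZ c a0 u0 X → ∀ η > 0,
  ∀ᶠ δ in 𝓝[>] (0 : ℝ), ∀ᶠ L in atTop, ‖ErrZ c w κ f ρ θ1 θ δ L (X c.Om)‖ ≤ η

/-- row UB: uniform bounds -/
def UBZ : Prop := ∀ w W κ f ρ θ1 θ a0 u0, DatZ c w W κ f ρ θ1 θ a0 u0 →
  ∃ (k m : ℕ) (C δ0 : ℝ), 0 ≤ C ∧ 0 < δ0 ∧ ∀ (a : ℝ) ψ wR wL (Λ δ L : ℝ), 1 ≤ a →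
    inner ℂ c.Om ψ = 0 → PkZ c k ψ Λ → DKZ c ψ → ‖gen c.SK ψ‖ ≤ Λ → TriZ c f θ1 a u0 ψ wR wL →
    (∀ j, LwZ c (wR j) Λ ∧ LwZ c (wL j) Λ) → 0 < δ → δ ≤ δ0 → 1 ≤ L →
    ‖ErrZ c w κ f ρ θ1 θ δ L ψ‖ ≤ C * a ^ m * Λ

/-- row UF: uniform bounds for fields below the plane -/
def UFZ : Prop := ∀ w W κ f ρ θ1 θ a0 u0 (b1 : ℝ), DatZ c w W κ f ρ θ1 θ a0 u0 →
  ∃ (m : ℕ) (C δ0 : ℝ), 0 ≤ C ∧ 0 < δ0 ∧ ∀ (a : ℝ) (g : Sch) (δ L : ℝ), 1 ≤ a →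
    In {z | b1 ≤ be z ∧ be z ≤ -u0 ∧ -a ≤ al z} (ev g) → 0 < δ → δ ≤ δ0 → 1 ≤ L →
    DKZ c (c.Th (ev g)) ∧ ‖ErrZ c w κ f ρ θ1 θ δ L (c.Th (ev g))‖ ≤ C * a ^ m * sn m g

/-- row RF: the statement for fields to the right -/
def RFZ : Prop := ∀ w W κ f ρ θ1 θ a0 u0 (g : Fn), DatZ c w W κ f ρ θ1 θ a0 u0 →
  In {z | be z < -u0 ∧ a0 + 2 < al z} g → ∀ η > 0,
  ∀ᶠ δ in 𝓝[>] (0 : ℝ), ∀ᶠ L in atTop, ‖ErrZ c w κ f ρ θ1 θ δ L (c.Th g)‖ ≤ η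

/-- the sub-rows with their dependencies -/
structure RowsZ : Prop where
  vit : VIT
  prim : PRIM
  ann : ANN
  norm : T3Z c → NORMZ c
  tail : T3Z c → PRIM → NORMZ c → TAILZ c
  cv : T3Z c → ANN → CVZ c
  smv : T3Z c → SMVZ c
  lwf : T3Z c → LWFZ c
  kp : T3Z c → SMVZ c → KPZ c
  tri : T3Z c → TRIZ c
  flow : T3Z c → ANN → FLOWZ c
  near : T3Z c → PRIM → ANN → NEARZ c
  dt : T3Z c → DTZ c
  k0t : T3Z c → K0TZ c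
  sch : T3Z c → SCHZ c
  ab : T3Z c → NORMZ c → SCHZ c → DTZ c → K0TZ c → ABZ c
  a1 : ToolsZ c → BP0Z c → A1Z c
  a3 : ToolsZ c → A3Z c
  aa : ToolsZ c → FLOWZ c → A1Z c → A3Z c → AAZ c
  ub : ToolsZ c → NEARZ c → ABZ c → UBZ c
  uf : ToolsZ c → UBZ c → UFZ c
  rf : ToolsZ c → AAZ c → UBZ c → UFZ c → RFZ c
  fin : ToolsZ c → VIT → UFZ c → RFZ c → CONK0Z c
  sh : ToolsZ c → CONK0Z c → CONKZ c

theorem RowsZ.conk {c : CtxZ D} (r : CK.RowsZ c) (t : T3Z c) (bp : BP0Z c) : CONKZ c := by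
  have norm := r.norm t
  have smv := r.smv t
  have tl : ToolsZ c := ⟨t, r.prim, r.ann, norm, r.tail t r.prim norm, r.cv t r.ann, smv, r.lwf t,
    r.kp t smv, r.tri t⟩
  have ub := r.ub tl (r.near t r.prim r.ann) (r.ab t norm (r.sch t) (r.dt t) (r.k0t t))
  have uf := r.uf tl ub
  exact r.sh tl (r.fin tl r.vit uf
    (r.rf tl (r.aa tl (r.flow t r.ann) (r.a1 tl bp) (r.a3 tl)) ub uf))

end

end Vale.Agent.P352X.CK
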