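import Vale.Agent.P352X.R.CONK.Tri
import Vale.Agent.P352Z.P352X.Api1C
import Vale.Agent.P352Z.P352X.R.CONK.Spec
import Vale.Agent.P352Z.P352X.R.FAR

open Vale.Agent.P352G

/-!
# P352X, block CONK, row TRI
-/

set_option linter.all false

open MeasureTheory Filter Topology Set
open scoped ContDiff SchwartzMap

namespace Vale.Agent.P352X.CK

open Vale.Agent.P352 Vale.Agent.P352.GF Vale.Agent.P352.BW Vale.Agent.P352.H246
open Vale.Agent.P352.H496 Vale.Agent.P352.H755 Vale.Agent.P352X.Ap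
open UniformSpace (Completion)

variable {D : Type*} [NormedAddCommGroup D] [InnerProductSpace ℂ D] [GrD D] {c : CtxZ D}

/-- the fields are linear maps -/
theorem T_linZ (m n : Ix) {f : Fn} (hf : IsTest f) : IsLinearMap ℂ (c.T m n f) := by
  have e : ∀ w v, inner ℂ w (c.T m n f v) = inner ℂ (c.T m n (bar f) w) v := fun w v => by
    rw [c.hT.herm m n _ _ _ (test_bar hf), bar_bar']
  exact ⟨fun u v => ext_inner_left ℂ fun w => by simp only [e, inner_add_right],
    fun a v => ext_inner_left ℂ fun w => by simp only [e, inner_smul_right]⟩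

theorem Taa_eqZ {h : Fn} (hh : IsTest h) (v : D) : TaaZ c h v = ∑ k : Ix × Ix,
    ((eta k.1 * va k.1 * (eta k.2 * va k.2) : ℝ) : ℂ) • c.T k.1 k.2 h v := by
  rw [Fintype.sum_prod_type, TaaZ, CtxZ.Tf]
  exact Finset.sum_congr rfl fun m _ => Finset.sum_congr rfl fun n _ => Far.T_smulZ c m n _ hh v

theorem taa_hermZ {h : Fn} (hh : IsTest h) (u v : D) :
    inner ℂ (TaaZ c h u) v = inner ℂ u (TaaZ c (bar h) v) := by
  simp only [Taa_eqZ hh, Taa_eqZ (test_bar hh), sum_inner, inner_sum, inner_smul_left,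
    inner_smul_right, Complex.conj_ofReal, c.hT.herm _ _ _ _ _ hh]

theorem thf_hermZ {h : Fn} (hh : IsTest h) (u v : D) :
    inner ℂ (c.Thf h u) v = inner ℂ u (c.Thf (bar h) v) := by
  simp only [CtxZ.Thf, GF.tr, sum_inner, inner_sum, inner_smul_left,
    inner_smul_right, Complex.conj_ofReal, c.hT.herm _ _ _ _ _ hh]

/-- locality -/
theorem com_sepZ {g h : Fn} (hg : IsTest g) (hh : IsTest h) (s : Sep g h) (v : D) :
    c.Thf g (c.Thf h v) = c.Thf h (c.Thf g v) ∧ c.Thf g (TaaZ c h v) = TaaZ c h (c.Thf g v) := by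
  have l := fun m n k l v => c.Q.loc (c.T m n) (c.T k l) g h v (c.hT.bose m n)
    (c.Q.bose_fld _ (c.hT.bose k l)) hg hh s
  rw [Taa_eqZ hh, Taa_eqZ hh]
  unfold CtxZ.Thf GF.tr
  refine ⟨comm_sum (A := fun m => c.T m m g) (B := fun m => c.T m m h) _ _
    (fun _ => T_linZ _ _ hg) (fun _ => T_linZ _ _ hh) (fun _ _ => l _ _ _ _) v, ?_⟩
  exact comm_sum (A := fun m => c.T m m g) (B := fun k : Ix × Ix => c.T k.1 k.2 h) _ _
    (fun _ => T_linZ _ _ hg) (fun _ => T_linZ _ _ hh) (fun _ _ => l _ _ _ _) v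

/-- an even affiliated operator commutes weakly with `X` when the twists of the parts of `X` lie in
the commutant -/
theorem afs_twZ (g : G0 D) (ge : ∀ v : D, Gm D v = (Gd v : D))
    {M : VonNeumannAlgebra (Completion D)} {A A' : D → D} (hA : T.Afs M A A')
    (hG : ∀ v, Gm D ((A (Gd v) : D) : Completion D) = (A v : D)) {X}
    (h1 : tw (evp' X) ∈ M.commutant) (h2 : tw (odp X) ∈ M.commutant) (u v : D) :
    inner ℂ ((A' u : D) : Completion D) (X (v : Completion D)) =
      inner ℂ (u : Completion D) (X ((A v : D) : Completion D)) := by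
  have e1 := hA.2 _ h1 v u
  have e2 := hA.2 _ h2 (Gd v) u
  rw [(g.ev_evp X).tw] at e1
  rw [(g.od_odp X).tw, ContinuousLinearMap.mul_apply, ContinuousLinearMap.mul_apply, hG, ← ge,
    g.gz] at e2
  rw [← evp_add_odp X, ContinuousLinearMap.add_apply, ContinuousLinearMap.add_apply,
    inner_add_right, inner_add_right, e1, e2]

theorem t_gamZ (g : GRPZ c) (m n : Ix) {f : Fn} (hf : IsTest f) (v : D) :
    Gm D ((c.T m n f (Gd v) : D) : Completion D) = (c.T m n f v : D) := by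
  rw [g.gT m n f v hf, ← g.gext, g.g0.gz]

/-- weak commutation with operators in the opposite wedge -/
theorem op_wdgZ (t : T1Z c) {a u0 : ℝ} {O : Set V} {X} {h : Fn} (u v : D)
    (hO : O ⊆ {z | be z < -u0 ∧ a < al z}) (hX : X ∈ c.N O)
    (hh : In {z | al z < a ∧ -u0 < be z} h) :
    inner ℂ ((c.Thf (bar h) u : D) : Completion D) (X (v : Completion D)) =
      inner ℂ (u : Completion D) (X ((c.Thf h v : D) : Completion D)) ∧
    inner ℂ ((TaaZ c (bar h) u : D) : Completion D) (X (v : Completion D)) =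
      inner ℂ (u : Completion D) (X ((TaaZ c h v : D) : Completion D)) := by
  have hX' : ∀ Y ∈ c.N O, tw Y ∈ (c.N {z | al z < a ∧ -u0 < be z}).commutant :=
    t.jc.loc_tw (y := pt a (-u0) 0) null_vb null_va (by rw [md_vb]; simp)
      (fun z hz => ⟨by rw [md_vb]; simpa using hz.1, by rw [md_va]; simp; linarith [hz.2]⟩)
      (fun z hz => ⟨by rw [md_va]; simp; linarith [(hO hz).1], by rw [md_vb]; simpa using (hO hz).2⟩)
  have g := t.grp
  have h1 := hX' _ (c.hN.evp_mem hX)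
  have h2 := hX' _ (c.hN.odp_mem hX)
  refine ⟨afs_twZ g.g0 g.gext (g.affh _ h hh) (fun v => ?_) h1 h2 u v, ?_⟩
  · simp only [CtxZ.Thf, GF.tr, ← Completion.coe_toComplL (𝕜 := ℂ), map_sum, map_smul]
    simp only [Completion.coe_toComplL, t_gamZ g _ _ hh.1]
  have := afs_twZ g.g0 g.gext (g.afft _ _ (in_hk hh va va)) (fun v => by
    simp only [CtxZ.Tf, ← Completion.coe_toComplL (𝕜 := ℂ), map_sum]
    simp only [Completion.coe_toComplL, t_gamZ g _ _ (in_hk hh va va _ _).1]) h1 h2 u v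
  rwa [bar_hk] at this

theorem tri_rowZ (c : CtxZ D) (t : T3Z c) : TRIZ c where
  herm h u v hh := ⟨taa_hermZ hh u v, thf_hermZ hh u v⟩
  com a u0 g h v hh hg := com_sepZ hg.1 hh.1 (sep_of hh.2.2 hg.2.2) v
  op a u0 y r X h u v hO hX hh := op_wdgZ t.toT2Z.toT1Z u v hO hX hh
  fld f θ1 a u0 g hf hθ hg := by
    have k := fun j => Far.isTest_dc (Far.dc_pr (tst_wt (smooth_pol j) hf) hθ)
    refine ⟨fun j h _ => ?_, fun j h hh => ?_⟩
    · rw [CtxZ.Th, Completion.inner_coe, Completion.inner_coe, thf_hermZ (k j), Far.bar_pr]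
    · rw [CtxZ.Th, Completion.inner_coe, Completion.inner_coe, taa_hermZ hh.1,
        thf_hermZ (test_bar hg.1), bar_bar',
        (com_sepZ hg.1 (test_bar hh.1) (sep_of (in_bar hh).2.2 hg.2.2) _).2]
  opt f θ1 a a0 u0 y r X hf hθ sf sθ ha hO hX := by
    have k : ∀ j, In {z | al z < a0 ∧ -u0 < be z} (pr (wt (pol j) f) θ1) := fun j =>
      in_pr (tst_wt (smooth_pol j) hf) hθ ((tsupport_wt _ _).trans sf) sθ
    refine ⟨fun j h _ => ?_, fun j h hh => ?_⟩
    · have := (op_wdgZ t.toT2Z.toT1Z (TaaZ c h c.Q.vac) c.Q.vac hO hX (k j)).1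
      rwa [Far.bar_pr] at this
    · have := (op_wdgZ t.toT2Z.toT1Z (c.Thf (pr (wt (pol j) f) θ1) c.Q.vac) c.Q.vac hO hX
        (in_mono (in_bar hh) fun z hz => ⟨hz.1.trans_le ha, hz.2⟩)).2
      rw [bar_bar'] at this
      rw [star_inner]
      exact this

end Vale.Agent.P352X.CK
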