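import Vale.Agent.P352X.R.CONK.Ub
import Vale.Agent.P352Z.P352X.R.CONK.Spec

open Vale.Agent.P352G

/-!
# P352X, block CONK, row UB: uniform bounds (helper76)
-/

set_option linter.all false

open MeasureTheory Filter Topology
open scoped SchwartzMap ComplexConjugate ENNReal ContDiff

namespace Vale.Agent.P352X.CK

open Vale.Agent.P352 Vale.Agent.P352.GF Vale.Agent.P352.BW Vale.Agent.P352.H246
open Vale.Agent.P352.H496 Vale.Agent.P352.H755 Vale.Agent.P352.H15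
open UniformSpace (Completion)
open Complex (I)

noncomputable section

namespace Ub

variable {D : Type*} [NormedAddCommGroup D] [InnerProductSpace ℂ D] [GrD D] {c : CtxZ D}

/-- the row `TAIL` with the weights `qol j` -/
theorem tailqZ (tl : TAILZ c) : ∃ σ : ℝ, 0 < σ ∧ ∀ g, Tst g → ∃ C : ℝ, 0 ≤ C ∧
    ∀ j ρ (A : ℝ) w (Λ : ℝ), Tst ρ → tsupport ρ ⊆ Set.Icc (-1) 1 → 1 ≤ A → LwZ c w Λ →
      ‖inner ℂ ((TaaZ c (pr (wt (qol j) (kL g A)) ρ) c.Q.vac : D) : Completion D) w‖ ≤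
        C * A ^ (-σ) * (∫ t, |ρ t|) * Λ := by
  obtain ⟨σ, σ0, h⟩ := tl
  refine ⟨σ, σ0, fun g hg => ?_⟩
  choose C C0 hC using fun j => h _ (tst_wt (smooth_qol j) hg)
  refine ⟨∑ j, C j, Finset.sum_nonneg fun j _ => C0 j, fun j ρ A w Λ hρ sρ hA hw => ?_⟩
  obtain ⟨s, s0, s1, e⟩ := qol_kL j hA
  have A0 : 0 < A := by linarith
  have e' : pr (wt (qol j) (kL g A)) ρ = pr (kL (wt (qol j) g) A) fun t => s * ρ t := by
    funext z
    simp only [pr, e]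
    congr 1
    ring
  have k := hC j (fun t => s * ρ t) A w Λ (Ap.cs_cmul s hρ) (tsupport_mul_subset_right.trans sρ)
    hA hw
  simp only [abs_mul, abs_of_nonneg s0, integral_const_mul] at k
  rw [e']
  refine k.trans ?_
  have l0 : 0 ≤ Λ := (norm_nonneg _).trans hw.n0
  have r0 : 0 ≤ ∫ t, |ρ t| := integral_nonneg fun t => abs_nonneg _
  have := Finset.single_le_sum (fun j _ => C0 j) (Finset.mem_univ j)
  have := (C0 j).trans this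
  calc _ ≤ (∑ j, C j) * A ^ (-1 - σ) * (A * ∫ t, |ρ t|) * Λ := by gcongr
    _ = _ := by
      rw [sub_eq_add_neg, Real.rpow_add A0, Real.rpow_neg_one]
      field_simp

/-- the far annuli -/
theorem farZ (t : ToolsZ c) {w W κ f ρ θ1 θ a0 u0} (d : DatZ c w W κ f ρ θ1 θ a0 u0) :
    ∃ C σ c1 : ℝ, 0 ≤ C ∧ 0 < σ ∧ 1 ≤ c1 ∧ ∀ (a : ℝ) ψ wR wL (Λ δ A : ℝ), 1 ≤ a →
      TriZ c f θ1 a u0 ψ wR wL → (∀ j, LwZ c (wR j) Λ ∧ LwZ c (wL j) Λ) → 0 < δ → δ ≤ 1 → δ ≤ u0 →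
      c1 * a ≤ A → ‖inner ℂ (w0L w (pairF sq2 (eu κ) f ρ θ1 δ A)) ψ‖ ≤ C * A ^ (-σ) * Λ := by
  obtain ⟨B, -, hB⟩ := Ap.ex_Icc d.t1
  obtain ⟨gL, gR, c0, A0, tL, tR, c00, A01, e, sL, hs⟩ := t.ann.split κ f B d.cut d.tf
  obtain ⟨σ, σ0, ht⟩ := tailqZ t.tail
  obtain ⟨CL, CL0, hL⟩ := ht gL tL
  obtain ⟨CR, CR0, hR⟩ := ht gR tR
  have r0 : 0 ≤ ∫ t, |ρ t| := integral_nonneg fun t => abs_nonneg _
  have c2 : 0 < 2 / c0 := by positivity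
  refine ⟨4 * (CL + CR) * ∫ t, |ρ t|, σ, A0 + 2 / c0, by positivity, σ0, by linarith,
    fun a ψ wR wL Λ δ A ha tri hw δ0 δ1 δu hA => ?_⟩
  have A1 : A0 ≤ A := by nlinarith
  have A2 : 1 ≤ A := A01.trans A1
  have A3 : 0 < A := by linarith
  have A4 : 2 * a ≤ c0 * A := by
    have : c0 * ((A0 + 2 / c0) * a) = c0 * A0 * a + 2 * a := by field_simp
    nlinarith [mul_le_mul_of_nonneg_left hA c00.le, mul_pos (mul_pos c00 (one_pos.trans_le A01))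
      (one_pos.trans_le ha)]
  have sρ : tsupport ρ ⊆ Set.Icc (-1) 1 :=
    d.sr.trans (Set.Icc_subset_Icc (by norm_num) (by norm_num))
  have td := Ap.tst_dlt d.tr δ0.ne'
  have sd := Ap.tsupport_dlt_Icc d.sr δ0
  have sd' : tsupport (dlt δ ρ) ⊆ Set.Icc (-1) 1 :=
    sd.trans (Set.Icc_subset_Icc (by linarith) (by linarith))
  have id : ∫ t, |dlt δ ρ t| = ∫ t, |ρ t| := by
    simp only [Ap.abs_dlt δ0, Ap.integral_dlt δ0]
  obtain ⟨s1, s2⟩ := hs sq2 ρ θ1 δ A smooth_sq2 d.tr sρ d.t1 hB δ0 δ1 A1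
  rw [pairF_add t.ann smooth_sq2 (t.ann.tst _ d.cut.1) tL tR d.tf d.tr d.t1 δ0 A3 e, map_add,
    t.cv.late w W _ d.tp d.isW s1, t.cv.early w W _ d.tp d.isW s2,
    (t.cv.pair W _ _ _ _ _ _ d.isW tL d.tf d.tr d.t1 δ0 A3).1,
    (t.cv.pair W _ _ _ _ _ _ d.isW tR d.tf d.tr d.t1 δ0 A3).2, ← Finset.sum_add_distrib, sum_inner]
  refine (norm_sum_le_of_le (n := fun _ => (CL + CR) * A ^ (-σ) * (∫ t, |ρ t|) * Λ) _
    fun j _ => ?_).trans_eq (by simp; ring)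
  have tq := fun g (hg : Tst g) => tst_wt (smooth_qol j) (Ap.tst_kL hg A3)
  rw [inner_add_left, tri.right j _ (Ap.in_pr (tq _ tR) td fun _ _ _ => trivial),
    tri.left j _ (Ap.in_pr (tq _ tL) td fun z h1 h2 => ⟨?_, ?_⟩), Ap.bar_pr]
  · refine (norm_add_le _ _).trans ?_
    rw [norm_inner_symm]
    have := hL j _ A _ Λ td sd' A2 (hw j).2
    have := hR j _ A _ Λ td sd' A2 (hw j).1
    rw [id] at *
    linarith
  · have : al z / A ≤ -c0 := sL (Ap.tsupport_kL gL A (tsupport_wt _ _ h1))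
    rw [div_le_iff₀ A3] at this
    linarith
  · linarith [(sd h2).1]

end Ub

open Ub

theorem ub_rowZ {D : Type*} [NormedAddCommGroup D] [InnerProductSpace ℂ D] [GrD D] (c : CtxZ D)
    (t : ToolsZ c) (near : NEARZ c) (ab : ABZ c) : UBZ c := by
  intro w W κ f ρ θ1 θ a0 u0 d
  obtain ⟨k, m, hn⟩ := near _ (t.cv.cvw _ _ d.tp)
  obtain ⟨C1, C10, hn⟩ := hn κ f θ1 d.cut.1 d.tf d.t1
  obtain ⟨C2, δ2, C20, δ20, hab⟩ := ab f θ1 θ d.tf d.t1 d.bump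
  obtain ⟨C3, σ, c1, C30, σ0, c11, hf⟩ := farZ t d
  have r0 : 0 ≤ ∫ t, |ρ t| := integral_nonneg fun t => abs_nonneg _
  refine ⟨k, m, C1 * c1 ^ m * (∫ t, |ρ t|) + C3 / σ + |∫ t, ρ t| * C2 * 2, min 1 (min u0 δ2),
    by positivity, lt_min one_pos (lt_min d.hu δ20),
    fun a ψ wR wL Λ δ L ha hp pk dk hK tri hw δ0 hδ hL => ?_⟩
  obtain ⟨δ1, δu, δ3⟩ : δ ≤ 1 ∧ δ ≤ u0 ∧ δ ≤ δ2 := by simpa only [le_min_iff] using hδ
  have sρ : tsupport ρ ⊆ Set.Icc (-1) 1 :=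
    d.sr.trans (Set.Icc_subset_Icc (by norm_num) (by norm_num))
  have n0 : ‖ψ‖ ≤ Λ := pk.2 0 k.zero_le
  have l0 : 0 ≤ Λ := (norm_nonneg _).trans n0
  have a1 : 1 ≤ a ^ m := one_le_pow₀ ha
  have A1 : 1 ≤ c1 * a := by nlinarith
  have nr : ∀ A, 1 ≤ A → A ≤ c1 * a → ‖inner ℂ (w0L w (pairF sq2 κ f ρ θ1 δ A)) ψ‖ ≤
      C1 * c1 ^ m * (∫ t, |ρ t|) * a ^ m * Λ := fun A h1 h2 =>
    (hn ρ δ A ψ Λ d.tr sρ δ0 δ1 h1 hp pk).trans <| by
      calc _ ≤ C1 * (c1 * a) ^ m * (∫ t, |ρ t|) * Λ := by gcongr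
        _ = _ := by ring
  have p1 : ‖inner ℂ (w0L w (pairF sq2 κ f ρ θ1 δ L)) ψ‖ ≤
      C1 * c1 ^ m * (∫ t, |ρ t|) * a ^ m * Λ + C3 / σ * a ^ m * Λ := by
    rcases le_total L (c1 * a) with h | h
    · exact (nr L hL h).trans (le_add_of_nonneg_right (by positivity))
    have q := (t.ann.int ((innerSL ℂ ψ).comp (w0L w)) κ f ρ θ1 δ _ L d.cut.1 d.tf d.tr d.t1 δ0
      (one_pos.trans_le A1) h).2
    simp only [ContinuousLinearMap.comp_apply, innerSL_apply_apply] at q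
    rw [norm_inner_symm, q]
    refine norm_add_le_of_le ((norm_inner_symm _ _).trans_le (nr _ A1 le_rfl))
      ((int_le (K := C3 * Λ) A1 h σ0 (by positivity) fun s hs => ?_).trans ?_)
    · rw [norm_inner_symm]
      exact (hf a ψ wR wL Λ δ s ha tri hw δ0 δ1 δu hs).trans_eq (by ring)
    · have : (c1 * a) ^ (-σ) ≤ a ^ m :=
        (Real.rpow_le_one_of_one_le_of_nonpos A1 (by linarith)).trans a1
      calc _ ≤ C3 * Λ * a ^ m / σ := by gcongr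
        _ = _ := by ring
  have p2 : ‖((∫ t, ρ t : ℝ) : ℂ) * c.AbK f (abv θ1 θ δ) ψ‖ ≤ |∫ t, ρ t| * C2 * 2 * a ^ m * Λ := by
    rw [norm_mul, Complex.norm_real, Real.norm_eq_abs]
    calc _ ≤ |∫ t, ρ t| * (C2 * (Λ + Λ)) := by
          gcongr
          refine (hab δ ψ δ0 δ3 dk).trans ?_
          gcongr
      _ = |∫ t, ρ t| * C2 * 2 * 1 * Λ := by ring
      _ ≤ _ := by gcongr
  exact (norm_sub_le_of_le p1 p2).trans_eq (by ring)

end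

end Vale.Agent.P352X.CK
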