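import Vale.Agent.P352X.R.CONK.A3
import Vale.Agent.P352Z.P352X.R.CONK.A3.A

open Vale.Agent.P352G

/-!
# P352X, block CONK, row A3: the far tubes
-/

set_option linter.all false

open MeasureTheory Filter Topology Set
open scoped ContDiff SchwartzMap FourierTransform

namespace Vale.Agent.P352X.CK

open Vale.Agent.P352 Vale.Agent.P352.GF Vale.Agent.P352.BW Vale.Agent.P352.H246
open Vale.Agent.P352.H496 Vale.Agent.P352.H755
open UniformSpace (Completion)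

noncomputable section

namespace A3p

variable {D : Type*} [NormedAddCommGroup D] [InnerProductSpace ℂ D] [GrD D] {c : CtxZ D}
  {w W : I2 → I2 → S2 →L[ℂ] Completion D} {κ f g : P3 → ℝ} {ρ θ1 θ : ℝ → ℝ} {a0 u0 c0 : ℝ}
  {X : Completion D →L[ℂ] Completion D}

/-- the bound that is good for thin tubes -/
theorem thin_leZ (t : ToolsZ c) (d : DatZ c w W κ f ρ θ1 θ a0 u0) (x : RXZ c a0 u0 X) (hg : Tst g)
    (sg : tsupport g ⊆ {y | y.1 ≤ -c0}) {R : ℝ} (R0 : 0 < R) (hR : ∀ y ∈ tsupport f, ‖y‖ ≤ R) :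
    ∃ C, 0 ≤ C ∧ ∀ δ A, 0 < δ → δ ≤ 1 → δ ≤ u0 → 1 ≤ A → R + 1 ≤ c0 * A →
    ‖inner ℂ ((w0L w - w1L W) (pairF sq2 g f ρ (thn θ1 θ δ) δ A)) (X c.Om)‖ ≤
      C * (max 1 (Real.sqrt (δ * A)) / Real.sqrt A) := by
  obtain ⟨y, r, -, hO, hX⟩ := x.loc
  obtain ⟨m, hm, tb⟩ := t.ann.tube g f θ hg d.tf d.bump.1
  obtain ⟨R1, R10, hR1⟩ := ex_R hm
  obtain ⟨u, hu, -, u1, -⟩ := Ap.ex_chi (isCompact_closedBall (0 : R2) (R1 + R)) isOpen_univ
    (subset_univ _)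
  obtain ⟨C, C0, hC⟩ := com_leZ t
  obtain ⟨C1, C10, h1⟩ := n2_plane hg hu
  obtain ⟨C2, C20, h2⟩ := n2_dlt d.tr
  obtain ⟨C3, C30, h3⟩ := n2_thn d.t1 d.bump.1
  let e := EuclideanSpace.equiv (Fin 2) ℝ
  have hm2 : Dc fun ξ => ((sq2 (e ξ) * m (e ξ) : ℝ) : ℂ) :=
    Ap.cs_cle e (Ap.dc_cx (Ap.cs_mul_l smooth_sq2 hm))
  set m2 := sch fun ξ => ((sq2 (e ξ) * m (e ξ) : ℝ) : ℂ) with hm2d
  have I0 : 0 ≤ ∫ ξ, ‖(𝓕 m2 : 𝓢(_, ℂ)) ξ‖ := integral_nonneg fun _ => norm_nonneg _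
  have := n2_nonneg (cx (dR f))
  refine ⟨(∫ ξ, ‖(𝓕 m2 : 𝓢(_, ℂ)) ξ‖) * (C * ‖X‖ * (C1 * C2) * (n2 (cx (dR f)) * C3)),
    by positivity, fun δ A δ0 δ1 δu A1 hA => ?_⟩
  have A0 : 0 < A := one_pos.trans_le A1
  have ha := d.ha
  set s := Real.sqrt (δ * A) with hs
  have s0 : 0 < s := Real.sqrt_pos.2 (mul_pos δ0 A0)
  have s1 : 0 < max 1 s := lt_max_of_lt_left one_pos
  have ht := tst_thn d.t1 d.bump.1.1 δ
  have hd := tst_dlt d.tr δ0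
  have sρ : tsupport ρ ⊆ Set.Icc (-1) 1 := d.sr.trans (Icc_subset_Icc (by norm_num) (by norm_num))
  have us : ContDiff ℝ ∞ fun x => u ((max 1 s)⁻¹ • x) := hu.1.comp (contDiff_const_smul _)
  have hG := tst_wt us (Ap.tst_kL hg A0)
  set G := wt (fun x => u ((max 1 s)⁻¹ • x)) (kL g A) with hGd
  have e1 : (w0L w - w1L W) (pairF sq2 g f ρ (thn θ1 θ δ) δ A) =
      (w0L W - w1L W) (pairF (sqm m s) g f ρ (thn θ1 θ δ) δ A) := by
    have k1 := t.cv.late w W _ d.tp d.isW (tb ρ θ1 δ A d.tr sρ d.t1 δ0 A1)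
    have k2 := t.cv.early w W _ d.tp d.isW
      (sup_U2 (smooth_sqm hm.1 s) hg d.tf d.tr ht δ0 A0 sg hR (by linarith))
    rw [map_sub, map_sub] at k1
    rw [ContinuousLinearMap.sub_apply, ContinuousLinearMap.sub_apply, ← k2,
      sub_eq_sub_iff_sub_eq_sub, k1]
  let l0 : R2 →L[ℝ] EuclideanSpace ℝ (Fin 2) := s⁻¹ • (e.symm : R2 →L[ℝ] EuclideanSpace ℝ (Fin 2))
  let l : V × V →L[ℝ] EuclideanSpace ℝ (Fin 2) :=
    l0 ∘L (txL ∘L ContinuousLinearMap.fst ℝ V V - txL ∘L ContinuousLinearMap.snd ℝ V V)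
  let H : S2 := ST.tens (sch (pr G (dlt δ ρ))) (sch (pr f (thn θ1 θ δ)))
  have hH : ∀ z, H z = pr G (dlt δ ρ) z.1 * pr f (thn θ1 θ δ) z.2 := fun z => by
    rw [ST.tens_apply, Ap.sch_dc (Far.dc_pr hG hd), Ap.sch_dc (Far.dc_pr d.tf ht)]
  obtain ⟨-, e2⟩ := ST.syn m2 l (((δ * A : ℝ) : ℂ) • H) (pairF (sqm m s) g f ρ (thn θ1 θ δ) δ A)
    (fun z => by
      have k : e (l z) = s⁻¹ • (tx z.1 - tx z.2) := rfl
      rw [pair_apply (smooth_sqm hm.1 s) hg d.tf d.tr ht δ0 A0, SchwartzMap.smul_apply, hH,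
        Ap.sch_dc hm2, k, smul_eq_mul]
      simp only [pfun, pr, ← Complex.ofReal_mul, sqm, sq2, d2_smul, d2_smul_l, hGd, wt]
      congr 1
      rw [← Real.mul_self_sqrt (mul_pos δ0 A0).le, ← hs]
      by_cases k1 : m (s⁻¹ • (tx z.1 - tx z.2)) = 0
      · simp [k1]
      by_cases k2 : f (pl z.2) = 0
      · simp [k2]
      have b1 := hR1 _ (subset_tsupport _ k1)
      have b2 : ‖tx z.2‖ ≤ R := (norm_snd_le (pl z.2)).trans (hR _ (subset_tsupport _ k2))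
      rw [norm_smul, norm_inv, Real.norm_of_nonneg s0.le, inv_mul_le_iff₀ s0] at b1
      rw [show u ((max 1 s)⁻¹ • (pl z.1).2) = 1 from (u1 _ ?_).self_of_nhds]
      · field_simp
      · rw [mem_closedBall_zero_iff, norm_smul, norm_inv, Real.norm_of_nonneg s1.le,
          inv_mul_le_iff₀ s1]
        have := norm_le_norm_sub_add (tx z.1) (tx z.2)
        change ‖tx z.1‖ ≤ _
        nlinarith [le_max_left 1 s, le_max_right 1 s])
    ((innerSL ℂ (X c.Om)).comp (w0L W - w1L W))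
  rw [e1, norm_inner_symm]
  refine (congrArg norm e2).trans_le ((norm_integral_le_of_norm_le (g := fun ξ =>
    ‖(𝓕 m2 : 𝓢(_, ℂ)) ξ‖ * (C * ‖X‖ * (C1 * C2) * (n2 (cx (dR f)) * C3) *
      (max 1 s / Real.sqrt A))) ((𝓕 m2 : 𝓢(_, ℂ)).integrable.norm.mul_const _)
    (.of_forall fun ξ => ?_)).trans_eq (by rw [integral_mul_const]; ring))
  rw [norm_smul, map_smul, map_smul, norm_smul, Complex.norm_real,
    Real.norm_of_nonneg (mul_pos δ0 A0).le]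
  refine mul_le_mul_of_nonneg_left ?_ (norm_nonneg _)
  have k := hC W a0 u0 y r X G f (dlt δ ρ) (thn θ1 θ δ) (ST.frq l0 ξ) (-ST.frq l0 ξ)
    (ST.mdl (ST.frq l ξ) H) d.isW (fun z hz => ⟨(hO hz).1, by linarith [(hO hz).2]⟩) hX hG d.tf hd
    ht (sup_kL A0 sg (by linarith)) d.sf
    (fun t h => mem_Ioi.2 (by linarith [(Ap.tsupport_dlt_Icc d.sr δ0 h).1]))
    (fun t h => d.s1 (tsupport_thn _ _ _ h).1) fun x y => by
      have k : ST.frq l ξ (x, y) = ST.frq l0 ξ (tx x - tx y) := rfl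
      rw [ST.mdl_apply, hH]
      simp only [ST.pw, k, map_sub, pf, md, pr, cx, pl, ContinuousLinearMap.neg_apply]
      push_cast
      rw [mul_sub, sub_eq_add_neg, Complex.exp_add, mul_neg]
      ring
  refine (mul_le_mul_of_nonneg_left k (mul_pos δ0 A0).le).trans ?_
  have := n2_nonneg (cx (dlt δ ρ))
  have := n2_nonneg (cx (deriv (thn θ1 θ δ)))
  have q1 := Real.sqrt_pos.2 δ0
  have q2 := Real.sqrt_pos.2 A0
  calc _ ≤ δ * A * (C * ‖X‖ * (C1 * (max 1 s * Real.sqrt A / A ^ 2) * (C2 / Real.sqrt δ)) *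
        (n2 (cx (dR f)) * (C3 / Real.sqrt δ))) := by
        gcongr
        exacts [h1 A _ A0 s1, h2 δ δ0, h3 δ δ0 δ1]
    _ = _ := by
        field_simp
        rw [Real.sq_sqrt δ0.le, Real.sq_sqrt A0.le]
        ring

/-- the bound that is good for far tubes -/
theorem far_leZ (t : ToolsZ c) (d : DatZ c w W κ f ρ θ1 θ a0 u0) (x : RXZ c a0 u0 X) (hg : Tst g)
    (sg : tsupport g ⊆ {y | y.1 ≤ -c0}) {R : ℝ} (R0 : 0 < R) (hR : ∀ y ∈ tsupport f, ‖y‖ ≤ R) :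
    ∃ (C σ : ℝ) (m : ℕ), 0 ≤ C ∧ 0 < σ ∧ ∀ δ A, 0 < δ → δ ≤ 1 → δ ≤ u0 → 1 ≤ A → R + 1 ≤ c0 * A →
    ‖inner ℂ ((w0L w - w1L W) (pairF sq2 g f ρ (thn θ1 θ δ) δ A)) (X c.Om)‖ ≤
      C * (δ⁻¹ ^ m * A ^ (-σ)) := by
  obtain ⟨y, r, -, hO, hX⟩ := x.loc
  obtain ⟨σ, σ0, ht⟩ := Ub.tailqZ t.tail
  obtain ⟨C, C0, hC⟩ := ht g hg
  obtain ⟨m, C1, C10, h1⟩ := t.lwf.one
  choose C2 C20 h2 using fun j => t.lwf.thin _ θ1 θ m (tst_wt (smooth_pol j) d.tf) d.t1 d.bump.1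
  obtain ⟨C3, C30, h3⟩ := t.smv.lwx X x.good
  obtain ⟨C4, C40, h4⟩ := t.smv.lwx _ (t.smv.adj X x.good)
  have r0 : 0 ≤ ∫ t, |ρ t| := integral_nonneg fun t => abs_nonneg _
  refine ⟨∑ j, C * (∫ t, |ρ t|) * ((C3 + C4) * (C1 * C2 j)), σ, m,
    Finset.sum_nonneg fun j _ => by have := C20 j; positivity, σ0, fun δ A δ0 δ1 δu A1 hA => ?_⟩
  have A0 : 0 < A := one_pos.trans_le A1
  have ha := d.ha
  have hθ := tst_thn d.t1 d.bump.1.1 δ
  have td := tst_dlt d.tr δ0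
  have sd := Ap.tsupport_dlt_Icc d.sr δ0
  have sd' : tsupport (dlt δ ρ) ⊆ Set.Icc (-1) 1 :=
    sd.trans (Set.Icc_subset_Icc (by linarith) (by linarith))
  have id : ∫ t, |dlt δ ρ t| = ∫ t, |ρ t| := by
    simp only [Ap.abs_dlt δ0, Ap.integral_dlt δ0]
  have tri := t.tri.opt f (thn θ1 θ δ) 1 a0 u0 y r X d.tf hθ d.sf
    (fun t h => d.s1 (tsupport_thn _ _ _ h).1) ha.ge
    (fun z hz => ⟨(hO hz).1, by linarith [(hO hz).2]⟩) hX
  obtain ⟨p1, p2⟩ := t.cv.pair W _ _ _ _ _ _ d.isW hg d.tf d.tr hθ δ0 A0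
  rw [ContinuousLinearMap.sub_apply, t.cv.early w W _ d.tp d.isW
    (sup_U2 smooth_sq2 hg d.tf d.tr hθ δ0 A0 sg hR (by linarith)), p1, p2,
    ← Finset.sum_sub_distrib, sum_inner, Finset.sum_mul]
  refine norm_sum_le_of_le _ fun j _ => ?_
  have tq := tst_wt (smooth_qol j) (Ap.tst_kL hg A0)
  obtain ⟨G, e, hG⟩ := h2 j δ δ0 δ1
  have lw := h1 G
  rw [e] at lw
  rw [inner_sub_left, tri.right j _ (Ap.in_pr tq td fun _ _ _ => trivial),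
    tri.left j _ (Ap.in_pr tq td fun z k1 k2 =>
      ⟨sup_kL (a := -1) A0 sg (by linarith) k1, by linarith [(sd k2).1]⟩), Ap.bar_pr]
  refine (norm_sub_le _ _).trans ?_
  rw [norm_inner_symm]
  have k1 := hC j _ A _ _ td sd' A1 (h3 _ _ lw)
  have k2 := hC j _ A _ _ td sd' A1 (h4 _ _ lw)
  rw [id] at k1 k2
  have : 0 ≤ A ^ (-σ) := by positivity
  calc _ ≤ C * A ^ (-σ) * (∫ t, |ρ t|) * ((C3 + C4) * (C1 * sn m G)) := by linarith
    _ ≤ C * A ^ (-σ) * (∫ t, |ρ t|) * ((C3 + C4) * (C1 * (C2 j * δ⁻¹ ^ m))) := by gcongr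
    _ = _ := by ring

end A3p

open A3p

theorem a3_rowZ {D : Type*} [NormedAddCommGroup D] [InnerProductSpace ℂ D] [GrD D] (c : CtxZ D)
    (t : ToolsZ c) : A3Z c := by
  intro w W κ f ρ θ1 θ a0 u0 X g c0 d x hg c00 sg
  obtain ⟨R, R0, hR⟩ := ex_R d.tf
  obtain ⟨C1, C10, h1⟩ := thin_leZ t d x hg sg R0 hR
  obtain ⟨C2, σ, m, C20, σ0, h2⟩ := far_leZ t d x hg sg R0 hR
  set τ := min (1 / 2) (σ / (2 * m + 1)) with hτ
  have τ0 : 0 < τ := lt_min (by norm_num) (by positivity)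
  have τ1 : τ ≤ 1 / 2 := min_le_left _ _
  have τ2 : τ * (2 * m + 1) ≤ σ := (le_div_iff₀ (by positivity)).1 (min_le_right _ _)
  refine ⟨C1 + C2, τ, (R + 1) / c0 + 1, min 1 u0, τ0, lt_min one_pos d.hu, fun δ A δ0 hδ hA => ?_⟩
  obtain ⟨δ1, δu⟩ := le_min_iff.1 hδ
  have A1 : 1 ≤ A := le_trans (le_add_of_nonneg_left (by positivity)) hA
  have A0 : 0 < A := one_pos.trans_le A1
  have A2 : R + 1 ≤ c0 * A := (div_le_iff₀' c00).1 (by linarith)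
  have p0 : 0 < A ^ (-τ) := by positivity
  rcases le_total δ ((A ^ (-τ)) ^ 2) with h | h
  · refine (h1 δ A δ0 δ1 δu A1 A2).trans (mul_le_mul (by linarith) ?_ (by positivity) (by positivity))
    have q := Real.sqrt_pos.2 A0
    rw [div_le_iff₀ q]
    refine max_le ?_ ?_
    · rw [Real.sqrt_eq_rpow, ← Real.rpow_add A0]
      exact Real.one_le_rpow A1 (by linarith)
    · rw [Real.sqrt_mul δ0.le]
      exact mul_le_mul_of_nonneg_right (Real.sqrt_le_iff.2 ⟨p0.le, h⟩) q.le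
  · refine (h2 δ A δ0 δ1 δu A1 A2).trans (mul_le_mul (by linarith) ?_ (by positivity) (by positivity))
    calc _ ≤ ((A ^ (-τ)) ^ 2)⁻¹ ^ m * A ^ (-σ) := by gcongr
      _ = A ^ (τ * (2 * m) - σ) := by
        rw [← inv_pow, ← pow_mul, ← Real.rpow_neg A0.le, neg_neg, ← Real.rpow_mul_natCast A0.le,
          ← Real.rpow_add A0]
        push_cast
        rfl
      _ ≤ _ := Real.rpow_le_rpow_of_exponent_le A1 (by linarith)

end

end Vale.Agent.P352X.CK
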