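import Vale.Agent.P352X.R.CONK.AA
import Vale.Agent.P352Z.P352X.R.CONK.Spec

open Vale.Agent.P352G

/-!
# P352X, block CONK: row AA (helper71)
-/

set_option linter.all false

open MeasureTheory Filter Topology
open scoped SchwartzMap ComplexConjugate ENNReal ContDiff

namespace Vale.Agent.P352X.CK

open Vale.Agent.P352 Vale.Agent.P352.GF Vale.Agent.P352.BW Vale.Agent.P352.H246
open Vale.Agent.P352.H496 Vale.Agent.P352.H755 Vale.Agent.P352.H15
open UniformSpace (Completion)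
open Complex (I)

noncomputable section

namespace Aa

variable {W : R2 → ℝ} {κ f : P3 → ℝ} {ρ θ1 θ : ℝ → ℝ} {δ L : ℝ}

variable {D : Type*} [NormedAddCommGroup D] [InnerProductSpace ℂ D] [GrD D] {c : CtxZ D}

lemma inner_perpZ {ψ : Completion D} (h : inner ℂ c.Om ψ = 0) (v : Completion D) :
    inner ℂ (perpZ c v) ψ = inner ℂ v ψ := by
  rw [perpZ, inner_sub_left, inner_smul_left, h, mul_zero, sub_zero]

end Aa

open Aa in
theorem aa_rowZ {D : Type*} [NormedAddCommGroup D] [InnerProductSpace ℂ D] [GrD D] (c : CtxZ D) :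
    ToolsZ c → FLOWZ c → A1Z c → A3Z c → AAZ c := by
  intro t fl a1 a3 w W κ f ρ θ1 θ a0 u0 X d rx η hη
  have sρ : tsupport ρ ⊆ Set.Icc (-1) 1 := d.sr.trans (Set.Icc_subset_Icc (by norm_num) (by norm_num))
  obtain ⟨B, -, sB⟩ := Ap.ex_Icc d.t1
  obtain ⟨gL, gR, c0, A0, tL, tR, hc0, hA0, e, sL, sp⟩ := t.ann.split κ f B d.cut d.tf
  obtain ⟨C, σ, A1, δ0, hσ, hδ0, h3⟩ := a3 w W κ f ρ θ1 θ a0 u0 X gL c0 d rx tL hc0 sL
  obtain ⟨m, tm, tube⟩ := t.ann.tube κ f θ d.cut.1 d.tf d.bump.1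
  have hη' : 0 < η / 5 := by positivity
  have lim : Tendsto (fun A : ℝ => C / σ * A ^ (-σ)) atTop (𝓝 0) := by
    simpa using (tendsto_rpow_neg_atTop hσ).const_mul (C / σ)
  obtain ⟨A, hA, hA1, hA2⟩ := ((lim.eventually (ge_mem_nhds hη')).and
    ((eventually_ge_atTop A0).and (eventually_ge_atTop A1))).exists
  have hA' : 0 < A := by linarith
  have f0 := (fl _ m κ f ρ θ1 θ A (t.cv.cvw false w d.tp) tm d.cut.1 d.tf d.tr d.t1 d.bump.1
    hA').inner (𝕜 := ℂ) (tendsto_const_nhds (x := X c.Om))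
  have f1 := (fl _ m κ f ρ θ1 θ A (t.cv.cvW W d.isW).2 tm d.cut.1 d.tf d.tr d.t1 d.bump.1
    hA').inner (𝕜 := ℂ) (tendsto_const_nhds (x := X c.Om))
  simp only [inner_perpZ rx.perp, inner_zero_left] at f0 f1
  have f2 := (f0.sub f1).norm
  rw [sub_zero, norm_zero] at f2
  have late : ∀ F : S2, tsupport F ⊆ U1 → (w0L w - w1L W) F = 0 := fun F hF => by
    rw [ContinuousLinearMap.sub_apply, t.cv.late w W F d.tp d.isW hF, sub_self]
  filter_upwards [a1.above w W κ f ρ θ1 θ a0 u0 X d rx _ hη', f2.eventually (ge_mem_nhds hη'),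
    Ioc_mem_nhdsGT (lt_min hδ0 one_pos)] with δ b1 b2 hδ
  have hδ1 : δ ≤ δ0 := hδ.2.trans (min_le_left _ _)
  have hδ2 : δ ≤ 1 := hδ.2.trans (min_le_right _ _)
  have tt := tst_thn d.t1 d.bump.1 δ
  have o1 := (a1.order w W κ f ρ θ1 θ a0 u0 X _ δ d rx tt ((supp_thn θ1 θ δ).trans d.s1) hδ.1).norm
  have o2 := (a1.order w W κ f ρ θ1 θ a0 u0 X _ δ d rx (Ap.tst_blw d.t1 d.bump hδ.1)
    (((Ap.tsupport_blw d.t1 d.bump hδ.1).trans Set.inter_subset_right).trans d.s1) hδ.1).norm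
  rw [norm_zero] at o1 o2
  filter_upwards [b1, o1.eventually (ge_mem_nhds hη'), o2.eventually (ge_mem_nhds hη'),
    eventually_ge_atTop A] with L b3 b4 b5 hL
  have hL' : 0 < L := by linarith
  let Λ : S2 →L[ℂ] ℂ := innerSL ℂ (X c.Om) ∘L (w0L w - w1L W)
  have hΛ : ∀ F, ‖Λ F‖ = ‖inner ℂ ((w0L w - w1L W) F) (X c.Om)‖ := fun F =>
    norm_inner_symm (𝕜 := ℂ) (X c.Om) ((w0L w - w1L W) F)
  have i1 := (t.ann.int Λ κ f ρ _ δ A L d.cut.1 d.tf d.tr tt hδ.1 hA' hL).2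
  have i2 : ‖∫ s in A..L, ((s⁻¹ : ℝ) : ℂ) * Λ (pairF sq2 (eu κ) f ρ (thn θ1 θ δ) δ s)‖ ≤ η / 5 := by
    refine (int_tail hσ hA' hL fun s hs => ?_).trans hA
    have z := late _ (sp sq2 ρ _ δ s smooth_sq d.tr sρ tt ((supp_thn θ1 θ δ).trans sB) hδ.1 hδ2
      (hA1.trans hs)).1
    rw [hΛ, pair_add smooth_sq (t.ann.tst κ d.cut.1) tL tR e d.tf d.tr tt hδ.1 (by linarith),
      map_add, z, add_zero]
    exact h3 δ s hδ.1 hδ1 (hA2.trans hs)
  have i3 : ‖Λ (pairF sq2 κ f ρ (thn θ1 θ δ) δ A)‖ ≤ η / 5 := by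
    have z := late _ (tube ρ θ1 δ A d.tr sρ d.t1 hδ.1 (hA0.trans hA1))
    rw [map_sub, sub_eq_zero] at z
    rw [hΛ, z, ContinuousLinearMap.sub_apply, inner_sub_left]
    exact b2
  have i4 : ‖inner ℂ ((w0L w - w1L W) (pairF sq2 κ f ρ (thn θ1 θ δ) δ L)) (X c.Om)‖ ≤
      η / 5 + η / 5 := by
    rw [← hΛ, i1]
    exact (norm_add_le _ _).trans (add_le_add i3 i2)
  rw [ContinuousLinearMap.sub_apply, inner_sub_left] at i4
  rw [ErrZ, pair_split smooth_sq d.cut.1 d.tf d.tr d.t1 d.bump hδ.1 hL', map_add, map_add,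
    t.cv.late w W _ d.tp d.isW (supp_blw smooth_sq d.cut.1 d.tf d.tr d.sr d.t1 d.bump hδ.1 hL'),
    inner_add_left, inner_add_left]
  have key : ∀ x y z k y' : ℂ, x + y + z - k = x - k + (y - y') + y' + z := fun _ _ _ _ _ => by ring
  rw [key _ _ _ _ (inner ℂ (w1L W (pairF sq2 κ f ρ (thn θ1 θ δ) δ L)) (X c.Om))]
  refine (norm_add_le _ _).trans ((add_le_add (norm_add₃_le) le_rfl).trans ?_)
  linarith

end

end Vale.Agent.P352X.CK
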