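import Vale.Agent.P352X.R.CONK.DT
import Vale.Agent.P352Z.P352X.R.CONK.Spec
import Vale.Agent.P352Z.P352X.R.IB.Dt

open Vale.Agent.P352G

/-!
# P352X, row CK.dt, and the third part of row CK.norm (helper83)
-/

set_option linter.all false

open MeasureTheory Filter Topology Set
open scoped SchwartzMap Real

namespace Vale.Agent.P352X.CK

open Vale.Agent.P352 Vale.Agent.P352.GF Vale.Agent.P352.H755
open UniformSpace (Completion)

noncomputable section

variable {D : Type*} [NormedAddCommGroup D] [InnerProductSpace ℂ D] [GrD D]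

theorem dt_thmZ (c : CtxZ D) : DTZ c := fun ell c0 h g hg => by
  obtain ⟨C, h0, hC⟩ := Ib.dt_sqZ h (sch g)
  rw [Api4.coe_sch hg] at hC
  refine ⟨Api4.coe_sch hg ▸ memLp_ft3_m3 (sch g), √C, Real.sqrt_nonneg _, fun φ hφ => ?_⟩
  have := hC (Ib.S1 φ)
  have e : (fun t : ℝ => (t : ℂ) * deriv (cx φ) t) = cx fun t => t * deriv φ t := funext fun t => by
    rw [show deriv (cx φ) t = _ from
      (hφ.1.differentiable (by simp) t).hasDerivAt.ofReal_comp.deriv, cx, Complex.ofReal_mul]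
  rw [Ib.S1_coe hφ, e] at this
  refine (Real.le_sqrt_of_sq_le this).trans ?_
  rw [Real.sqrt_mul h0]
  refine mul_le_mul_of_nonneg_left (Real.sqrt_le_iff.2 ⟨add_nonneg (Real.sqrt_nonneg _)
    (Real.sqrt_nonneg _), ?_⟩) (Real.sqrt_nonneg _)
  rw [add_sq, n2, n2, ← Ib.q2, ← Ib.q2, Real.sq_sqrt (Ib.q2_nonneg _), Real.sq_sqrt (Ib.q2_nonneg _)]
  exact add_le_add_left (le_add_of_nonneg_right (by positivity)) _

theorem dt_rowZ (c : CtxZ D) : T3Z c → DTZ c := fun _ => dt_thmZ c

end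

end Vale.Agent.P352X.CK
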