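import Vale.Agent.P352X.R.CONK.CV
import Vale.Agent.P352Z.P352X.Api1C
import Vale.Agent.P352Z.P352X.R.CONK.Spec
import Vale.Agent.P352Z.P352X.R.FAR

open Vale.Agent.P352G

/-!
# P352X: row CK.cv (covariance and orderings)
-/

set_option linter.all false

open MeasureTheory Filter Topology
open scoped SchwartzMap ComplexConjugate ENNReal ContDiff

namespace Vale.Agent.P352X.CK

open Vale.Agent.P352 Vale.Agent.P352.GF Vale.Agent.P352.BW Vale.Agent.P352.H246
open Vale.Agent.P352.H496 Vale.Agent.P352.H755 Vale.Agent.P352.H15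
open UniformSpace (Completion)

noncomputable section

namespace Cvr

variable {D : Type*} [NormedAddCommGroup D] [InnerProductSpace ℂ D] [GrD D] {c : CtxZ D}

/-- covariance up to multiples of the vacuum -/
def CovZ (c : CtxZ D) (w : I2 → I2 → S2 →L[ℂ] Completion D) : Prop :=
  ∀ s L a K M (F G : S2), 0 < s → IsLor L → (∀ x y, G (x, y) = F (sim s L a x, sim s L a y)) →
    ∃ κ : ℂ, w K M F = ∑ K', ∑ M', (L2 L K' K * L2 L M' M) • Ug c.Q s L a (w K' M' G) + κ • c.Om

lemma CovZ.one {w : I2 → I2 → S2 →L[ℂ] Completion D} (h : CovZ c w) {s μ : ℝ} {L : Ix → V} {a : V}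
    {F G : S2} (hs : 0 < s) (hL : IsLor L) (e : ∀ x y, G (x, y) = F (sim s L a x, sim s L a y))
    (ha : ∀ k, mdot va (L k) = μ * (eta k * va k)) :
    ∃ κ : ℂ, w0L w F = ((μ ^ 2 : ℝ) : ℂ) • Ug c.Q s L a (w0L w G) + κ • c.Om := by
  choose κ hκ using fun K M => h s L a K M F G hs hL e
  refine ⟨∑ k, ∑ l, ∑ n, ((eta k * va k * (eta l * va l) * eta n : ℝ) : ℂ) * κ (k, l) (n, n), ?_⟩
  rw [w0L_apply, w0L_apply]
  simp only [hκ, smul_add, Finset.sum_add_distrib]
  rw [key hL ha]
  simp only [map_sum, map_smul, Finset.sum_smul, smul_smul]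

lemma CovZ.cv (g : GRPZ c) {w : I2 → I2 → S2 →L[ℂ] Completion D} (h : CovZ c w) : CvZ c (w0L w) := by
  refine ⟨fun a F G e => ?_, fun r s F G hr hs e => ?_⟩
  · have := h.one (μ := 1) (a := a) (F := F) (G := G) one_pos H496.isLor_one
      (fun x y => by rw [sim_ut, sim_ut, e]) fun k => by
        rw [← contr (r := 1) H496.isLor_one (by rw [sim_ut, add_zero, one_smul]) k, one_mul,
          one_mul]
    simpa only [one_pow, Complex.ofReal_one, one_smul, Ut] using this
  · obtain ⟨hΛ, hz⟩ := g.lsc r s hr hs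
    have hq : 0 < Real.sqrt (r * s) := Real.sqrt_pos.2 (by positivity)
    set Λ := bst va vb (Real.sqrt (r / s) - 1) (Real.sqrt (s / r) - 1)
    have e2 : sim 1 Λ 0 va = (r / Real.sqrt (r * s)) • va := by
      have h3 : Real.sqrt (r * s) • sim 1 Λ 0 va = r • va := by
        have : scp r s va = r • va := null_ext (by simp) (by simp) (by simp)
        rw [← this, ← hz]
        funext n
        simp [sim]
      refine smul_right_injective _ hq.ne' (h3.trans ?_)
      simp only [smul_smul]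
      rw [mul_div_cancel₀ _ hq.ne']
    have := h.one (μ := Real.sqrt (r * s) / r) (a := 0) (F := F) (G := G) hq hΛ
      (fun x y => by rw [hz, hz, e]) fun k => by
        rw [← contr hΛ e2 k]
        field_simp
    rwa [div_pow, Real.sq_sqrt (by positivity), show r * s / r ^ 2 = s / r by field_simp] at this

lemma cov_tpZ {e : Bool} {w : I2 → I2 → S2 →L[ℂ] Completion D} (h : TP2 c.Q c.T e w) : CovZ c w :=
  fun s L a K M F G hs hL e => by
    simpa only [Ug_apply c.Q hs hL] using h.cov s L a K M F G hs hL e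

lemma cov_WZ {W : I2 → I2 → S2 →L[ℂ] Completion D} (h : IsWZ c W) : CovZ c W :=
  fun s L a K M F G hs hL e => ⟨0, by rw [zero_smul, add_zero]; exact h.2 s L a K M F G hs hL e⟩

lemma cov_W'Z {W : I2 → I2 → S2 →L[ℂ] Completion D} (h : IsWZ c W) :
    CovZ c fun K M => W M K ∘L swp := fun s L a K M F G hs hL e => ⟨0, by
  rw [zero_smul, add_zero, Finset.sum_comm]
  simp only [ContinuousLinearMap.comp_apply]
  rw [h.2 s L a M K (swp F) (swp G) hs hL fun x y => e y x]
  simp only [mul_comm]⟩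

lemma lateZ {w W : I2 → I2 → S2 →L[ℂ] Completion D} (hw : TP2 c.Q c.T false w) (hW : IsWZ c W)
    (K M : I2) {F : S2} (hF : tsupport F ⊆ U1) : w K M F = W M K (swp F) := by
  refine sub_eq_zero.1 (ST.ker2 (w K M - W M K ∘L swp) open_U1 (fun f g _ _ hs => ?_) F hF)
  simp only [ContinuousLinearMap.sub_apply, ContinuousLinearMap.comp_apply]
  rw [hw.fac K M f g _ (fun _ _ => rfl) fun x hx y hy => hs (Set.mk_mem_prod hx hy) x rfl y rfl,
    hW.1 M K g f _ fun x y => mul_comm (f y) (g x)]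
  simp

lemma earlyZ {w W : I2 → I2 → S2 →L[ℂ] Completion D} (hw : TP2 c.Q c.T false w) (hW : IsWZ c W)
    (K M : I2) {F : S2} (hF : tsupport F ⊆ U2) : w K M F = W K M F := by
  refine sub_eq_zero.1 (ST.ker2 (w K M - W K M) open_U2 (fun f g _ _ hs => ?_) F hF)
  simp only [ContinuousLinearMap.sub_apply]
  rw [hw.swap K M (ST.tens f g) (ST.tens g f) fun x y => mul_comm (g x) (f y),
    hw.fac M K g f _ (fun _ _ => rfl) fun y hy x hx => hs (Set.mk_mem_prod hx hy) y rfl x rfl,
    hW.1 K M f g _ fun x y => rfl]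
  simp

lemma Taa_eqZ {h : Fn} (hh : IsTest h) (v : D) : TaaZ c h v =
    ∑ k, ∑ l, ((eta k * va k * (eta l * va l) : ℝ) : ℂ) • c.T k l h v := by
  unfold TaaZ CtxZ.Tf
  exact Finset.sum_congr rfl fun k _ => Finset.sum_congr rfl fun l _ => Far.T_smulZ c k l _ hh v

lemma prodZ {W : I2 → I2 → S2 →L[ℂ] Completion D} (hW : IsWZ c W) {h g : Fn} {F : S2}
    (hh : IsTest h) (hg : IsTest g) (e : ∀ x y, F (x, y) = h x * g y) :
    w0L W F = ((TaaZ c h (c.Thf g c.Q.vac) : D) : Completion D) ∧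
    w1L W F = ((c.Thf g (TaaZ c h c.Q.vac) : D) : Completion D) := by
  have hB := fun m n => c.Q.bose_fld _ (c.hT.bose m n)
  rw [w1L, w0L_apply, w0L_apply, Taa_eqZ hh, Taa_eqZ hh]
  obtain ⟨h, rfl⟩ := id hh
  obtain ⟨g, rfl⟩ := id hg
  simp only [ContinuousLinearMap.comp_apply, fun K M => hW.1 K M h g F e,
    fun K M => hW.1 K M g h (swp F) fun x y => (e y x).trans (mul_comm _ _), coe_sum3, CtxZ.Thf,
    GF.tr, fsum (hB _ _) hh, fsum (hB _ _) hg, fsmul (hB _ _) hh, fsmul (hB _ _) hg,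
    Finset.smul_sum, smul_smul]
  constructor
  · simp only [Complex.ofReal_mul]
  · congr 1
    rw [sum21]
    simp only [Complex.ofReal_mul, mul_comm]

end Cvr

open Cvr

variable {D : Type*} [NormedAddCommGroup D] [InnerProductSpace ℂ D] [GrD D]

theorem cv_rowZ (c : CtxZ D) : T3Z c → ANN → CVZ c := fun t a => by
  refine ⟨fun w F => (w0L_apply w F).symm, fun e w h => (cov_tpZ h).cv t.grp,
    fun W h => ⟨(cov_WZ h).cv t.grp, (cov_W'Z h).cv t.grp⟩, fun w W F hw hW hF => ?_,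
    fun w W F hw hW hF => ?_, fun W h g F hW hh hg e => prodZ hW hh hg e,
    fun W κ f ρ θ1 δ L hW hκ hf hρ h1 hδ hL => ?_⟩
  · simp only [w1L, w0L_apply, ContinuousLinearMap.comp_apply, lateZ hw hW _ _ hF]
  · simp only [w0L_apply, earlyZ hw hW _ _ hF]
  · have d1 := fun j => Far.dc_pr (tst_wt (smooth_qol j) (Far.tst_kL hκ hL)) (tst_dlt hρ hδ)
    have d2' := fun j => Far.dc_pr (tst_wt (smooth_pol j) hf) h1
    have e : pairF sq2 κ f ρ θ1 δ L = ∑ j, ST.tens (sch (pr (wt (qol j) (kL κ L)) (dlt δ ρ)))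
        (sch (pr (wt (pol j) f) θ1)) := by
      ext z
      rw [a.app sq2 κ f ρ θ1 δ L (smooth_d2 contDiff_id contDiff_id) hκ hf hρ h1 hδ hL, sq2_sub]
      simp only [SchwartzMap.sum_apply, ST.tens_apply, Far.sch_apply (d1 _), Far.sch_apply (d2' _),
        pr, wt, pl_2, Finset.sum_mul, Complex.ofReal_sum, ← Complex.ofReal_mul]
      exact Finset.sum_congr rfl fun j _ => congrArg _ (by ring)
    have p := fun j => prodZ hW (F := ST.tens (sch (pr (wt (qol j) (kL κ L)) (dlt δ ρ)))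
      (sch (pr (wt (pol j) f) θ1))) (Far.isTest_dc (d1 j)) (Far.isTest_dc (d2' j)) fun x y => by
        rw [ST.tens_apply, Far.sch_apply (d1 j), Far.sch_apply (d2' j)]
    rw [e, map_sum, map_sum]
    exact ⟨Finset.sum_congr rfl fun j _ => (p j).1, Finset.sum_congr rfl fun j _ => (p j).2⟩

end

end Vale.Agent.P352X.CK
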