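import Vale.Agent.P352X.R.CONK.Near
import Vale.Agent.P352Z.P352X.Api1C
import Vale.Agent.P352Z.P352X.R.CONK.Spec

open Vale.Agent.P352G

/-!
# P352X, block CONK: row NEAR (helper71)
-/

set_option linter.all false

open MeasureTheory Filter Topology
open scoped SchwartzMap ComplexConjugate ENNReal ContDiff

namespace Vale.Agent.P352X.CK

open Vale.Agent.P352 Vale.Agent.P352.GF Vale.Agent.P352.BW Vale.Agent.P352.H246
open Vale.Agent.P352.H496 Vale.Agent.P352.H755 Vale.Agent.P352.H15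
open UniformSpace (Completion)
open Complex (I)

noncomputable section

namespace Near

/-! ### bounds for test functions -/

section bd

variable {E F : Type*} [NormedAddCommGroup E] [NormedSpace ℝ E] [NormedAddCommGroup F]
  [NormedSpace ℝ F]

end bd

/-! ### profiles -/

/-! ### translations along `b` -/

variable {D : Type*} [NormedAddCommGroup D] [InnerProductSpace ℂ D] [GrD D] {c : CtxZ D}

lemma perp_genZ (g : GRPZ c) {ψ : Completion D} (h0 : inner ℂ c.Om ψ = 0) (h : Dm (Pb c.Q) ψ) :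
    inner ℂ c.Om (gen (Pb c.Q) ψ) = 0 := by
  rw [g.ugPb.symm (gn_of_fix fun t => g.vac _ _ _) h.gn, inner_zero_left]

lemma derZ (t : T3Z c) {R : S2 →L[ℂ] Completion D} (hR : CvZ c R) (F F' : S2)
    (e : ∀ z, F' z = fderiv ℝ F z (vb, vb)) {ψ : Completion D} (h0 : inner ℂ c.Om ψ = 0)
    (h : Dm (Pb c.Q) ψ) : inner ℂ (R F') ψ = I * inner ℂ (R F) (gen (Pb c.Q) ψ) := by
  let G : ℝ → S2 := fun s => F.compSubConstCLM ℂ (-(s • ((vb, vb) : V × V)))
  have hG : ∀ s z, G s z = F (z + s • (vb, vb)) := fun s z => by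
    simp only [G, SchwartzMap.compSubConstCLM_apply, sub_neg_eq_add]
  have h1 : ∀ s, inner ℂ (R (G s)) ψ = inner ℂ (R F) (Pb c.Q s ψ) := fun s => by
    obtain ⟨κ, hκ⟩ := hR.tra (s • vb) F (G s) fun x y => hG s (x, y)
    have h2 : inner ℂ c.Om (Pb c.Q s ψ) = 0 := by
      rw [← h0, ← t.grp.ugPb.inn s c.Om ψ]
      exact congrArg (inner ℂ · _) (t.grp.vac _ _ _).symm
    rw [hκ, inner_add_left, inner_smul_left, h2, mul_zero, add_zero]
    exact (t.grp.ugPb.inn s _ _).symm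
  have h2 := t.lie.der (V × V) (fun _ => 1) (fun s => s • (vb, vb)) 0 (vb, vb) F F' G
    (hasDerivAt_const _ _) (by simpa using (hasDerivAt_id (0 : ℝ)).smul_const ((vb, vb) : V × V))
    rfl (zero_smul _ _) (.of_forall fun s z => hG s z) fun z => by simpa using e z
  have h3 : HasDerivAt (fun s => inner ℂ (R F) (Pb c.Q s ψ))
      (inner ℂ (R F) (I • gen (Pb c.Q) ψ)) 0 := by
    simpa using (hasDerivAt_const (0 : ℝ) (R F)).inner ℂ h.gn
  rw [hasDerivAt_iff_tendsto_slope_zero] at h3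
  have h4 := ((R.continuous.tendsto _).comp h2).inner (𝕜 := ℂ) (tendsto_const_nhds (x := ψ))
  rw [← inner_smul_right]
  refine tendsto_nhds_unique h4 (h3.congr fun s => ?_)
  have h5 : R F = R (G 0) := by
    congr 1
    ext z
    simp [hG]
  rw [zero_add, ← h1, ← h1, ← h5, Function.comp, R.map_smul_of_tower, map_sub,
    ← Complex.coe_smul s⁻¹ (R (G s) - R F), inner_smul_left, inner_sub_left, Complex.conj_ofReal,
    Complex.real_smul]

lemma Pk_succZ {j : ℕ} {ψ : Completion D} {Λ : ℝ} (h : PkZ c (j + 1) ψ Λ) :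
    PkZ c j ψ Λ ∧ Dm (Pb c.Q) ψ ∧ PkZ c j (gen (Pb c.Q) ψ) Λ :=
  ⟨⟨fun l hl => h.1 l (by omega), fun l hl => h.2 l (by omega)⟩, h.1 0 (by omega),
    fun l hl => h.1 (l + 1) (by omega), fun l hl => h.2 (l + 1) (by omega)⟩

end Near

open Near in
theorem near_rowZ {D : Type*} [NormedAddCommGroup D] [InnerProductSpace ℂ D] [GrD D] (c : CtxZ D) :
    T3Z c → PRIM → ANN → NEARZ c := by
  intro t ⟨χ, Cp, tχ, sχ, hCp, prim⟩ an R hR
  obtain ⟨C0, N, hC0, b0⟩ := ST.clm_sn_c R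
  obtain ⟨m, hm⟩ := sn_P an N
  refine ⟨N + 1, m, fun κ f θ1 hκ hf hθ => ?_⟩
  have sχ' : tsupport χ ⊆ Set.Icc (-1) 1 := sχ.trans (Set.Icc_subset_Icc_left (by norm_num))
  have key : ∀ j i, i + j = N + 1 → ∀ φ, Tst φ → ∃ C, 0 ≤ C ∧ ∀ ρ (M A : ℝ) ψ (Λ : ℝ), Tst ρ →
      tsupport ρ ⊆ Set.Icc (-1) 1 → Nb i ρ M → 1 ≤ A → inner ℂ c.Om ψ = 0 → PkZ c j ψ Λ →
      ‖inner ℂ (R (P κ f A ρ φ)) ψ‖ ≤ C * (A ^ m * M * Λ) := by
    intro j
    induction j with
    | zero =>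
      intro i hi φ hφ
      obtain ⟨C, hC, h⟩ := hm κ f φ hκ hf hφ
      refine ⟨C0 * C, by positivity, fun ρ M A ψ Λ hρ sρ hN hA _ hP => ?_⟩
      have h1 := h ρ M A hρ sρ ⟨hρ.1, fun l hl => hN.1 l (by omega)⟩ hA
      have h2 : ‖ψ‖ ≤ Λ := hP.2 0 le_rfl
      have hM := hN.nonneg
      refine (norm_inner_le_norm _ _).trans ((mul_le_mul ((b0 _).trans
        (mul_le_mul_of_nonneg_left h1 hC0)) h2 (norm_nonneg _) (by positivity)).trans (le_of_eq ?_))
      ring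
    | succ j ih =>
      intro i hi φ hφ
      obtain ⟨C1, hC1, h1⟩ := ih (i + 1) (by omega) φ hφ
      obtain ⟨C2, hC2, h2⟩ := ih (i + 1) (by omega) (deriv φ) (Ap.cs_deriv hφ)
      obtain ⟨Mχ, hχ⟩ := ex_Nb tχ (i + 1)
      have hMχ := hχ.nonneg
      refine ⟨(C1 + C2) * (1 + Mχ + 2 * Cp) + C1 * Mχ, by positivity,
        fun ρ M A ψ Λ hρ sρ hN hA h0 hP => ?_⟩
      obtain ⟨Rr, tR, sR, e, hRb⟩ := prim ρ hρ sρ
      obtain ⟨p1, p2, p3⟩ := Pk_succZ hP
      have nR := hN.prim hχ hρ tχ tR sR hCp e hRb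
      have a1 := h1 Rr _ A _ Λ tR sR nR hA (perp_genZ t.grp h0 p2) p3
      have a2 := h2 Rr _ A _ Λ tR sR nR hA h0 p1
      have a3 := h1 χ _ A _ Λ tχ sχ' hχ hA h0 p1
      have a4 := derZ t hR _ _ (P_der an hκ hf hA tR hφ) h0 p2
      rw [map_add, inner_add_left] at a4
      have hc : ‖∫ t, ρ t‖ ≤ M := (norm_integral_le_integral_norm _).trans hN.2
      have hΛ : 0 ≤ Λ := (norm_nonneg _).trans (hP.2 0 (by omega))
      have hA0 : 0 ≤ A := by linarith
      rw [P_lin an hκ hf hA hρ (Ap.cs_deriv tR) tχ hφ e, map_add, map_smul, inner_add_left,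
        inner_smul_left, eq_sub_of_add_eq a4, Complex.conj_ofReal]
      refine (norm_add_le _ _).trans ((add_le_add (norm_sub_le _ _) le_rfl).trans ?_)
      rw [norm_mul, norm_mul, Complex.norm_I, one_mul, Complex.norm_real]
      refine (add_le_add (add_le_add a1 a2) (mul_le_mul hc a3 (norm_nonneg _) hN.nonneg)).trans
        (le_of_eq ?_)
      ring
  obtain ⟨C, hC, h⟩ := key (N + 1) 0 (by omega) θ1 hθ
  refine ⟨C, hC, fun ρ δ A ψ Λ hρ sρ hδ hδ1 hA h0 hP => ?_⟩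
  have t1 : Tst (dlt δ ρ) := by
    rw [show dlt δ ρ = fun s => δ⁻¹ * ρ (δ⁻¹ • s) from funext fun s => by
      simp [dlt, div_eq_inv_mul]]
    exact Ap.cs_cmul δ⁻¹ (Ap.cs_smul (inv_ne_zero hδ.ne') hρ)
  have s1 : tsupport (dlt δ ρ) ⊆ Set.Icc (-1) 1 := Ap.tsupp_sub isClosed_Icc fun s hs => by
    obtain ⟨h1, h2⟩ := sρ (subset_tsupport ρ (a := s / δ) fun k => hs (by rw [dlt, k, zero_div]))
    rw [le_div_iff₀ hδ] at h1
    rw [div_le_iff₀ hδ] at h2
    constructor <;> linarith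
  have i1 : ∫ s, |dlt δ ρ s| = ∫ s, |ρ s| := by
    simp only [dlt, abs_div, abs_of_pos hδ]
    rw [integral_div, Measure.integral_comp_div (fun s => |ρ s|), abs_of_pos hδ, smul_eq_mul,
      mul_div_cancel_left₀ _ hδ.ne']
  have := h (dlt δ ρ) _ A ψ Λ t1 s1 ⟨fun l hl => absurd hl (Nat.not_lt_zero l), i1.le⟩ hA h0 hP
  have e : pairF sq2 κ f ρ θ1 δ A = P κ f A (dlt δ ρ) θ1 := by
    simp only [P, pairF, dlt, div_one]
  rw [e]
  exact this.trans (le_of_eq (by ring))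

end

end Vale.Agent.P352X.CK
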