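import Vale.Agent.P352X.R.CONK.LWF
import Vale.Agent.P352Z.P352X.Api1C
import Vale.Agent.P352Z.P352X.R.CONK.Spec
import Vale.Agent.P352Z.P352X.R.FAR
import Vale.Agent.P352Z.P352X.R.GEN

open Vale.Agent.P352G

/-!
# P352X, block CONK, row LWF: bounds for the generators on vectors created by fields (helper76)
-/

set_option linter.all false

open MeasureTheory Filter Topology
open scoped SchwartzMap ComplexConjugate ENNReal ContDiff

namespace Vale.Agent.P352X.CK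

open Vale.Agent.P352 Vale.Agent.P352.GF Vale.Agent.P352.BW Vale.Agent.P352.H246
open Vale.Agent.P352.H496 Vale.Agent.P352.H755 Vale.Agent.P352.H15
open H148 (Od snS)
open UniformSpace (Completion)
open Complex (I)

noncomputable section

namespace Lwf

variable {D : Type*} [NormedAddCommGroup D] [InnerProductSpace ℂ D] [GrD D]

theorem od_thZ (c : CtxZ D) : Od c.Thf c.Thf where
  lin f g a v hf hg := by
    simp only [CtxZ.Thf, GF.tr, (Gen.odZ c _ _).lin _ _ _ _ hf hg, smul_add, Finset.sum_add_distrib,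
      Finset.smul_sum, smul_comm a]
  cont v := continuous_finset_sum (f := fun m g => (eta m : ℂ) • c.T m m (ev g) v) .univ
    fun m _ => ((Gen.odZ c m m).cont v).const_smul _
  adj f v w hf := by
    simp only [CtxZ.Thf, GF.tr, sum_inner, inner_sum, inner_smul_left, inner_smul_right,
      Complex.conj_ofReal, (Gen.odZ c _ _).adj _ _ _ hf]

theorem fm1Z (c : CtxZ D) : Fm (fun g : Sch => c.Thf (ev g) c.Q.vac) sn :=
  ⟨Lie.sn_nonneg, fun _ _ g h => Lie.sn_mono h g, fun _ _ h => bd1 (od_comp h (od_thZ c)) _⟩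

theorem fm2Z (c : CtxZ D) : Fm (fun q : Sch × Sch => c.Thf (ev q.1) (c.Thf (ev q.2) c.Q.vac))
    fun m q => sn m q.1 * sn m q.2 :=
  ⟨fun m q => mul_nonneg (Lie.sn_nonneg _ _) (Lie.sn_nonneg _ _), fun _ _ q h =>
    mul_le_mul (Lie.sn_mono h _) (Lie.sn_mono h _) (Lie.sn_nonneg _ _) (Lie.sn_nonneg _ _),
    fun _ _ h => bd2 (od_comp h (od_thZ c)) (od_thZ c) _⟩

variable {c : CtxZ D}

/-- the generator leaves the domain invariant and is symmetric there -/
theorem ex_genZ {W X} (K : Gen.FlZ c W X) (g : GRPZ c) (u : UG W) :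
    ∃ A : D → D, Adj A A ∧ ∀ v : D, Gn W (v : Completion D) (A v : D) := by
  have h : ∀ v : D, Gn W (v : Completion D) (c.A X v : D) := fun v => by
    have := K.dom g v
    rwa [Completion.coe_smul] at this
  refine ⟨_, fun v w => ?_, h⟩
  simpa only [Completion.inner_coe] using (u.symm (h v) (h w)).symm

theorem Fm.lwZ {ι : Type} {v : ι → D} {s : ℕ → ι → ℝ} (h : Fm v s) (g : GRPZ c) :
    ∃ (m : ℕ) (C : ℝ), 0 ≤ C ∧ ∀ i, LwZ c (v i : D) (C * s m i) := by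
  obtain ⟨P, aP, hP⟩ := ex_genZ (Gen.fl_utZ c vb) g g.ugPb
  obtain ⟨G, aG, hG⟩ := ex_genZ (Gen.fl_gbZ g) g g.ugGb
  replace hP : ∀ v : D, Gn (Pb c.Q) (v : Completion D) (P v : D) := hP
  obtain ⟨m, C, C0, hC⟩ := h.fin ![id, G, P, fun v => G (P v)] fun j => by
    fin_cases j
    exacts [⟨_, adj_id⟩, ⟨_, aG⟩, ⟨_, aP⟩, ⟨_, aG.comp aP⟩]
  refine ⟨m, C, C0, fun i => ⟨(hG _).dm, (hP _).dm, ?_, ?_, ?_, ?_, ?_⟩⟩ <;>
    simp only [(hP _).gen_eq, (hG _).gen_eq, Completion.norm_coe]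
  exacts [(hG _).dm, hC 0 i, hC 1 i, hC 2 i, hC 3 i]

theorem Fm.pkZ {ι : Type} {v : ι → D} {s : ℕ → ι → ℝ} (h : Fm v s) (g : GRPZ c) (k : ℕ) :
    ∃ (m : ℕ) (C : ℝ), 0 ≤ C ∧ ∀ i, PkZ c k (v i : D) (C * s m i) := by
  obtain ⟨P, aP, hP⟩ := ex_genZ (Gen.fl_utZ c vb) g g.ugPb
  replace hP : ∀ v : D, Gn (Pb c.Q) (v : Completion D) (P v : D) := hP
  have e : ∀ j (v : D), (gen (Pb c.Q))^[j] v = (P^[j] v : D) := fun j => by
    induction j with
    | zero => exact fun _ => rfl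
    | succ j ih => exact fun v => by rw [Function.iterate_succ_apply, (hP _).gen_eq, ih]; rfl
  obtain ⟨m, C, C0, hC⟩ := h.fin (fun j : Fin (k + 1) => P^[j]) fun j => adj_iter aP j
  refine ⟨m, C, C0, fun i => ⟨fun j _ => e j _ ▸ (hP _).dm, fun j hj => ?_⟩⟩
  rw [e, Completion.norm_coe]
  exact hC ⟨j, Nat.lt_succ_of_le hj⟩ i

end Lwf

open Lwf

theorem lwf_rowZ {D : Type*} [NormedAddCommGroup D] [InnerProductSpace ℂ D] [GrD D] (c : CtxZ D)
    (t : T3Z c) : LWFZ c where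
  one := (fm1Z c).lwZ t.grp
  pk := (fm1Z c).pkZ t.grp
  two := let ⟨m, C, C0, h⟩ := (fm2Z c).lwZ t.grp
    ⟨m, C, C0, fun f g => mul_assoc C _ _ ▸ h (f, g)⟩
  thin := thin

end

end Vale.Agent.P352X.CK
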