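import Vale.Agent.P352X.R.CONK.Smv
import Vale.Agent.P352Z.P352X.R.CONK.Spec

open Vale.Agent.P352G

/-!
# P352X, row CK.smv: smooth vectors and good operators
-/

set_option linter.all false

noncomputable section

open MeasureTheory Filter Topology
open scoped ContDiff

namespace Vale.Agent.P352X.CK

open Vale.Agent.P352 Vale.Agent.P352.GF Vale.Agent.P352.BW Vale.Agent.P352.H246
open UniformSpace (Completion)
open Complex (I)

namespace Smv

section abstr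

variable {E : Type*} [NormedAddCommGroup E] [NormedSpace ℝ E] [NormedSpace ℂ E]
  [IsScalarTower ℝ ℂ E]

variable {G : Q3 → E →L[ℂ] E} {W : ℝ → E →L[ℂ] E} {ξ : Q3 → Q3} {v : E}

end abstr

section ops

variable {E F : Type*} [NormedAddCommGroup E] [NormedSpace ℝ E] [NormedSpace ℂ E]
  [IsScalarTower ℝ ℂ E] [NormedAddCommGroup F] [NormedSpace ℝ F] [NormedSpace ℂ F]
  [IsScalarTower ℝ ℂ F] [SMulCommClass ℂ ℝ F]

end ops

variable {D : Type*} [NormedAddCommGroup D] [InnerProductSpace ℂ D] [GrD D] {c : CtxZ D}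

/-! ### the group -/

section grp

variable (g : GRPZ c)
include g

lemma bo0Z : Bo c.Q 0 = 1 := by simpa [Bo] using g.sc1

lemma bo_addZ (s t : ℝ) : Bo c.Q (s + t) = Bo c.Q s * Bo c.Q t := by
  rw [Bo, Bo, Bo, ← g.sc _ _ _ _ (Real.exp_pos _) (Real.exp_pos _) (Real.exp_pos _)
    (Real.exp_pos _), ← Real.exp_add, ← Real.exp_add, neg_add]

lemma pb0Z : Pb c.Q 0 = 1 := by simpa [Pb] using g.ut0

lemma pb_addZ (s t : ℝ) : Pb c.Q (s + t) = Pb c.Q s * Pb c.Q t := by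
  rw [Pb, Pb, Pb, ← g.ut, add_smul]

lemma gb_pbZ (s t : ℝ) : Gb c.Q s * Pb c.Q t = Pb c.Q t * Gb c.Q s := by
  rw [Pb, g.gb_ut]
  congr 2
  exact null_ext (by simp) (by rw [be_gbp, tx_smul, tx_vb]; simp) (by simp)

lemma pb_boZ (u e : ℝ) : Pb c.Q u * Bo c.Q e = Bo c.Q e * Pb c.Q (Real.exp e * u) := by
  rw [Bo, Pb, Pb, g.sc_ut _ _ _ (Real.exp_pos _) (Real.exp_pos _)]
  congr 2
  refine null_ext (by simp) ?_ (by simp)
  simp [← mul_assoc, ← Real.exp_add]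

lemma gb_boZ (s e : ℝ) : Gb c.Q s * Bo c.Q e = Bo c.Q e * Gb c.Q (Real.exp e * s) := by
  rw [Bo, g.sc_gb _ _ _ (Real.exp_pos _) (Real.exp_pos _), div_eq_mul_inv, ← Real.exp_neg,
    Real.sqrt_mul_self (Real.exp_pos _).le, ← mul_assoc, ← Real.exp_add]
  simp

lemma gq0Z : c.gq 0 = 1 := by simp [CtxZ.gq, bo0Z g, pb0Z g, g.gb0]

lemma gq_uniZ (q : Q3) : c.gq q ∈ unitary (Completion D →L[ℂ] Completion D) :=
  mul_mem (mul_mem (g.uni _ _ _) (g.uni _ _ _)) (g.uni _ _ _)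

lemma star_ofZ {W : ℝ → Completion D →L[ℂ] Completion D} (h0 : W 0 = 1)
    (ha : ∀ s t, W (s + t) = W s * W t) {t : ℝ}
    (hu : W t ∈ unitary (Completion D →L[ℂ] Completion D)) : star (W t) = W (-t) := by
  rw [← mul_one (star (W t)), ← h0, ← add_neg_cancel t, ha, ← mul_assoc, hu.1, one_mul]

lemma gq_starZ (q : Q3) :
    star (c.gq q) = Gb c.Q (-q.2.2) * Pb c.Q (-q.2.1) * Bo c.Q (-q.1) := by
  rw [CtxZ.gq, star_mul, star_mul, star_ofZ g g.gb0 g.gb (g.uni _ _ _),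
    star_ofZ g (pb0Z g) (pb_addZ g) (g.uni _ _ _), star_ofZ g (bo0Z g) (bo_addZ g) (g.uni _ _ _),
    mul_assoc]

lemma good_iffZ {X : Completion D →L[ℂ] Completion D} :
    c.Good X ↔ ContDiff ℝ ∞ fun q => c.gq q * X * star (c.gq q) := by
  simp only [gq_starZ g]
  simp only [CtxZ.Good, CtxZ.gq, mul_assoc]

lemma dirGZ : Dir c.gq (Gb c.Q) fun _ => (0, 0, 1) :=
  ⟨gq0Z g, ⟨fun q e => (q.1, q.2.1, q.2.2 + e), fun q e => by simp only [CtxZ.gq, g.gb, mul_assoc],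
    fun q => by simp, fun q => (hasDerivAt_const _ _).prodMk ((hasDerivAt_const _ _).prodMk
      ((hasDerivAt_id' _).const_add _))⟩, contDiff_const⟩

lemma dirPZ : Dir c.gq (Pb c.Q) fun _ => (0, 1, 0) :=
  ⟨gq0Z g, ⟨fun q e => (q.1, q.2.1 + e, q.2.2), fun q e => by
    simp only [CtxZ.gq, pb_addZ g, mul_assoc, gb_pbZ g], fun q => by simp,
    fun q => (hasDerivAt_const _ _).prodMk (((hasDerivAt_id' _).const_add _).prodMk
      (hasDerivAt_const _ _))⟩, contDiff_const⟩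

lemma dirBZ : Dir c.gq (Bo c.Q) fun q => (1, q.2.1, q.2.2) :=
  ⟨gq0Z g, ⟨fun q e => (q.1 + e, Real.exp e * q.2.1, Real.exp e * q.2.2), fun q e => by
    simp only [CtxZ.gq, bo_addZ g, mul_assoc, gb_boZ g]
    rw [← mul_assoc (Pb _ _), pb_boZ g, mul_assoc], fun q => by simp,
    fun q => ((hasDerivAt_id' _).const_add _).prodMk
      ((by simpa using (Real.hasDerivAt_exp 0).mul_const q.2.1 :
        HasDerivAt (fun e => Real.exp e * q.2.1) q.2.1 0).prodMk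
      (by simpa using (Real.hasDerivAt_exp 0).mul_const q.2.2))⟩, by fun_prop⟩

end grp

variable {W : ℝ → Completion D →L[ℂ] Completion D} {ξ : Q3 → Q3} {v : Completion D}
  {X : Completion D →L[ℂ] Completion D}

lemma gen_eqZ (h : Dir c.gq W ξ) (hv : SmZ c v) :
    Dm W v ∧ gen W v = -I • fderiv ℝ (fun q => c.gq q v) 0 (ξ 0) :=
  gn_iff.1 (gn_of_hasDerivAt (h.der hv))

lemma sm_smulZ (a : ℂ) (hv : SmZ c v) : SmZ c (a • v) := by
  simpa only [SmZ, map_smul] using ContDiff.const_smul a hv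

lemma sm_genZ (h : Dir c.gq W ξ) (hv : SmZ c v) : SmZ c (gen W v) :=
  (gen_eqZ h hv).2 ▸ sm_smulZ _ (h.smooth hv)

/-- the derivatives at the origin -/
abbrev itZ (c : CtxZ D) (j : ℕ) (v : Completion D) := iteratedFDeriv ℝ j (fun q => c.gq q v) 0

lemma it_smulZ (a : ℂ) (hv : SmZ c v) (j : ℕ) : itZ c j (a • v) = a • itZ c j v := by
  simp only [itZ, map_smul]
  exact iteratedFDeriv_const_smul_apply' (hv.contDiffAt.of_le (by exact_mod_cast le_top))

lemma it_subZ {w : Completion D} (hv : SmZ c v) (hw : SmZ c w) (j : ℕ) :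
    itZ c j (v - w) = itZ c j v - itZ c j w := by
  simp only [itZ, map_sub]
  exact fun_iteratedFDeriv_sub_apply (hv.contDiffAt.of_le (by exact_mod_cast le_top))
    (hw.contDiffAt.of_le (by exact_mod_cast le_top))

lemma it_genZ {ξ : Q3} (h : Dir c.gq W fun _ => ξ) (hξ : ‖ξ‖ ≤ 1) (hv : SmZ c v) (j : ℕ) :
    ‖itZ c j (gen W v)‖ ≤ ‖itZ c (j + 1) v‖ := by
  rw [(gen_eqZ h hv).2, it_smulZ _ (h.smooth hv), norm_smul, norm_neg, Complex.norm_I, one_mul]
  exact h.iter hξ hv j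

lemma it_zeroZ (g : GRPZ c) : ‖itZ c 0 v‖ = ‖v‖ := by
  rw [norm_iteratedFDeriv_zero, gq0Z g]
  rfl

lemma it_leZ {j k : ℕ} (h : j ≤ k) : ‖itZ c j v‖ ≤ nqZ c k v :=
  Finset.single_le_sum (f := fun j => ‖itZ c j v‖) (fun _ _ => norm_nonneg _)
    (Finset.mem_range.2 (Nat.lt_succ_of_le h))

lemma sm_iterZ (g : GRPZ c) (hv : SmZ c v) (j : ℕ) : SmZ c ((gen (Pb c.Q))^[j] v) ∧
    ∀ i, ‖itZ c i ((gen (Pb c.Q))^[j] v)‖ ≤ ‖itZ c (i + j) v‖ := by
  induction j with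
  | zero => exact ⟨hv, fun _ => le_rfl⟩
  | succ j ih =>
    rw [Function.iterate_succ_apply']
    exact ⟨sm_genZ (dirPZ g) ih.1, fun i => (it_genZ (dirPZ g) nP ih.1 i).trans
      ((ih.2 _).trans_eq (by rw [add_assoc, add_comm 1]))⟩

lemma lwZ (g : GRPZ c) (hv : SmZ c v) : LwZ c v (nqZ c 2 v) ∧ ‖gen (Bo c.Q) v‖ ≤ nqZ c 1 v ∧
    ∀ k, PkZ c k v (nqZ c k v) := by
  have hP := sm_genZ (dirPZ g) hv
  refine ⟨⟨(gen_eqZ (dirGZ g) hv).1, (gen_eqZ (dirPZ g) hv).1, (gen_eqZ (dirGZ g) hP).1, ?_, ?_, ?_, ?_⟩,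
    ?_, fun k => ⟨fun j _ => (gen_eqZ (dirPZ g) (sm_iterZ g hv j).1).1, fun j hj => ?_⟩⟩
  · exact (it_zeroZ g).symm.trans_le (it_leZ zero_le_two)
  · exact (it_zeroZ g).symm.trans_le ((it_genZ (dirGZ g) nG hv 0).trans (it_leZ one_le_two))
  · exact (it_zeroZ g).symm.trans_le ((it_genZ (dirPZ g) nP hv 0).trans (it_leZ one_le_two))
  · exact (it_zeroZ g).symm.trans_le ((it_genZ (dirGZ g) nG hP 0).trans
      ((it_genZ (dirPZ g) nP hv 1).trans (it_leZ le_rfl)))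
  · rw [(gen_eqZ (dirBZ g) hv).2, norm_smul, norm_neg, Complex.norm_I, one_mul]
    refine le_trans ?_ (it_leZ (v := v) le_rfl)
    rw [norm_iteratedFDeriv_one]
    exact (ContinuousLinearMap.le_opNorm _ _).trans
      (mul_le_of_le_one_right (norm_nonneg _) (by simp [Prod.norm_def]))
  · exact (it_zeroZ g).symm.trans_le (((sm_iterZ g hv j).2 0).trans (it_leZ (by simpa using hj)))

/-! ### good operators -/

lemma sm_appZ (g : GRPZ c) (hX : c.Good X) (hv : SmZ c v) : SmZ c (X v) := by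
  have h1 := smooth_app ((good_iffZ g).1 hX) hv
  have e : ∀ q, (c.gq q * X * star (c.gq q)) (c.gq q v) = c.gq q (X v) := fun q => by
    show (c.gq q * X * star (c.gq q) * c.gq q) v = _
    rw [mul_assoc, (gq_uniZ g q).1, mul_one]
    rfl
  simp only [e] at h1
  exact h1

/-- the product rule -/
lemma good_derZ (g : GRPZ c) (h : Dir c.gq W ξ) (h0 : W 0 = 1)
    (hu : ∀ e, W e ∈ unitary (Completion D →L[ℂ] Completion D)) (hX : c.Good X) :
    ∃ Y, c.Good Y ∧ ∀ v, Dm W v → Gn W (X v) (Y v + X (gen W v)) := by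
  obtain ⟨m, h1, h2, h3⟩ := h.ex
  obtain ⟨Z, k1, k2⟩ := op_der (B := fun q => star (c.gq q)) (W' := fun e => star (W e)) (X := X)
    h.zero (by rw [h.zero, star_one]) h0 (by rw [h0, star_one]) h1
    (fun q e => by rw [← h1, star_mul]) h2 h3 h.sm ((good_iffZ g).1 hX)
  refine ⟨-I • Z, (good_iffZ g).2 ?_, fun v hv => ?_⟩
  · simp only [mul_smul_comm, smul_mul_assoc]
    exact smooth_smul k1 (-I)
  · have h4 := k2 _ _ hv.gn
    have e : ∀ e, star (W e) (W e v) = v := fun e => DFunLike.congr_fun (hu e).1 v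
    simp only [e] at h4
    refine h4.congr_deriv ?_
    simp [h0, smul_smul]

lemma lwxZ (g : GRPZ c) (hX : c.Good X) :
    ∃ C : ℝ, 0 ≤ C ∧ ∀ v Λ, LwZ c v Λ → LwZ c (X v) (C * Λ) := by
  obtain ⟨XG, -, h1⟩ := good_derZ g (dirGZ g) g.gb0 (fun _ => g.uni _ _ _) hX
  obtain ⟨XP, h2, h3⟩ := good_derZ g (dirPZ g) (pb0Z g) (fun _ => g.uni _ _ _) hX
  obtain ⟨XPG, -, h4⟩ := good_derZ g (dirGZ g) g.gb0 (fun _ => g.uni _ _ _) h2
  refine ⟨‖X‖ + ‖XG‖ + ‖XP‖ + ‖XPG‖, by positivity, fun v Λ h => ?_⟩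
  have hΛ := (norm_nonneg _).trans h.n0
  have b : ∀ (Y : Completion D →L[ℂ] Completion D) (w : Completion D), ‖w‖ ≤ Λ →
      ‖Y w‖ ≤ ‖Y‖ * Λ := fun Y w hw => Y.le_of_opNorm_le_of_le le_rfl hw
  have p : ∀ Y : Completion D →L[ℂ] Completion D, 0 ≤ ‖Y‖ * Λ := fun Y => by positivity
  have k1 := h1 v h.dg
  have k2 := h3 v h.dp
  have k3 := (h4 v h.dg).add (h1 _ h.dgp)
  rw [← k2.gen_eq] at k3
  refine ⟨k1.dm, k2.dm, k3.dm, ?_, ?_, ?_, ?_⟩
  · linarith [b X _ h.n0, p XG, p XP, p XPG]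
  · rw [k1.gen_eq]
    linarith [norm_add_le (XG v) (X (gen (Gb c.Q) v)), b X _ h.ng, b XG _ h.n0, p XP, p XPG]
  · rw [k2.gen_eq]
    linarith [norm_add_le (XP v) (X (gen (Pb c.Q) v)), b X _ h.np, b XP _ h.n0, p XG, p XPG]
  · rw [k3.gen_eq]
    refine (norm_add_le _ _).trans ((add_le_add (norm_add_le _ _) (norm_add_le _ _)).trans ?_)
    linarith [b X _ h.ngp, b XP _ h.ng, b XG _ h.np, b XPG _ h.n0]

lemma good_starZ (g : GRPZ c) (hX : c.Good X) : c.Good (star X) := by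
  have h1 : ContDiff ℝ ∞ fun q => star (c.gq q * X * star (c.gq q)) :=
    (starL' ℝ (A := Completion D →L[ℂ] Completion D)).contDiff.comp ((good_iffZ g).1 hX)
  refine (good_iffZ g).2 ?_
  simpa only [star_mul, star_star, mul_assoc] using h1

lemma good_scalZ (g : GRPZ c) (a : ℂ) (hX : c.Good X) : c.Good (X - a • 1) := by
  have h1 := ((good_iffZ g).1 hX).sub
    (contDiff_const (c := a • (1 : Completion D →L[ℂ] Completion D)))
  refine (good_iffZ g).2 ?_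
  simpa only [mul_sub, sub_mul, mul_smul_comm, smul_mul_assoc, mul_one, (gq_uniZ g _).2] using h1

lemma sm_vacZ (g : GRPZ c) : SmZ c c.Om := by
  have e : ∀ q, c.gq q c.Om = c.Om := fun q => by
    simp only [CtxZ.gq, mul_apply_eq_comp, Gb, Pb, Ut, Bo, Usc, g.vac]
  simpa only [SmZ, e] using contDiff_const

lemma nq_limZ (g : GRPZ c) {X : ℕ → Completion D →L[ℂ] Completion D} {a : ℕ → ℂ}
    {w : Completion D} (hX : ∀ n, c.Good (X n)) (hv : SmZ c v) (hw : SmZ c w)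
    (ha : Tendsto a atTop (𝓝 0))
    (h : ∀ k, Tendsto (fun n => itZ c k (X n v)) atTop (𝓝 (itZ c k w))) (k : ℕ) :
    Tendsto (fun n => nqZ c k ((X n - a n • 1) v - w)) atTop (𝓝 0) := by
  have h1 := tendsto_finsetSum (Finset.range (k + 1)) fun j _ =>
    (((h j).sub (ha.smul_const (itZ c j v))).sub_const (itZ c j w)).norm
  simp only [zero_smul, sub_zero, sub_self, norm_zero, Finset.sum_const_zero] at h1
  refine h1.congr fun n => Finset.sum_congr rfl fun j _ => ?_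
  have h2 := sm_appZ g (hX n) hv
  have h3 := sm_smulZ (a n) hv
  have h4 : SmZ c (X n v - a n • v) := by simpa only [SmZ, map_sub] using ContDiff.sub h2 h3
  rw [← it_smulZ _ hv, ← it_subZ h2 h3, ← it_subZ h4 hw]
  rfl

end Smv

open Smv

variable {D : Type*} [NormedAddCommGroup D] [InnerProductSpace ℂ D] [GrD D]

/-- **row CK.smv** -/
theorem smv_rowZ (c : CtxZ D) : T3Z c → SMVZ c := fun t => by
  have g := t.grp
  refine ⟨fun v w hv hw => by simpa only [SmZ, map_sub] using ContDiff.sub hv hw,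
    fun v hv => ⟨(gen_eqZ (dirBZ g) hv).1, (gen_eqZ (dirPZ g) hv).1, (gen_eqZ (dirGZ g) hv).1,
      sm_genZ (dirBZ g) hv, sm_genZ (dirPZ g) hv, sm_genZ (dirGZ g) hv⟩, fun v => lwZ g,
    fun X => good_starZ g, fun X a => good_scalZ g a, fun X v => sm_appZ g, sm_vacZ g, fun X => lwxZ g,
    fun y r f m η hf hη => ?_⟩
  obtain ⟨f', X, h1, h2, h3, he, h4⟩ := t.good.fld y r f m η hf hη
  have n1 : inner ℂ c.Om c.Om = 1 := by
    rw [inner_self_eq_norm_sq_to_K, CtxZ.Om, om, Completion.norm_coe, c.Q.norm_vac]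
    simp
  have ha : Tendsto (fun n => inner ℂ c.Om (X n c.Om)) atTop (𝓝 0) := by
    have k1 := (h4 c.Q.vac 0).1.tendstoLocallyUniformlyOn.tendsto_at (Set.mem_univ 0)
    have k2 := ((continuous_eval_const (fun _ => 0)).tendsto _).comp k1
    simp only [Function.comp_def, iteratedFDeriv_zero_apply, gq0Z g, one_apply_eq_self] at k2
    have k3 : inner ℂ c.Om ((c.Thf (ev f') c.Q.vac : D) : Completion D) = 0 := by
      simp only [om, Completion.inner_coe, CtxZ.Thf, GF.tr, inner_sum, inner_smul_right,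
        g.perp _ _ _ ⟨f', rfl⟩, mul_zero, Finset.sum_const_zero]
    exact k3 ▸ tendsto_const_nhds.inner k2
  refine ⟨f', fun n => X n - inner ℂ c.Om (X n c.Om) • 1, h1, h2, fun n => ⟨sub_mem (h3 n).1
    ((c.N _).toStarSubalgebra.smul_mem (one_mem _) _), good_scalZ g _ (h3 n).2, ?_,
    (he n).sub (Ev.smul (c.hN.g0.ev_one) _)⟩,
    fun v k => ⟨nq_limZ g (fun n => (h3 n).2) (t.gen.sm v) (t.gen.sm _) ha (fun k =>
      (h4 v k).1.tendstoLocallyUniformlyOn.tendsto_at (Set.mem_univ 0)) k, ?_⟩⟩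
  · show inner ℂ c.Om (X n c.Om - inner ℂ c.Om (X n c.Om) • c.Om) = 0
    rw [inner_sub_right, inner_smul_right, n1, mul_one, sub_self]
  · have hb := (continuous_star.tendsto _).comp ha
    rw [star_zero] at hb
    simpa only [star_sub, star_smul, star_one, Function.comp_def] using
      nq_limZ g (fun n => good_starZ g (h3 n).2) (t.gen.sm v) (t.gen.sm _) hb (fun k =>
        (h4 v k).2.tendstoLocallyUniformlyOn.tendsto_at (Set.mem_univ 0)) k

end Vale.Agent.P352X.CK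

end
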