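import Vale.Agent.P352X.R.CONK.Uf
import Vale.Agent.P352Z.P352X.R.CONK.Tri

open Vale.Agent.P352G

/-!
# P352X, row CK.uf: uniform bounds for fields below the plane
-/

set_option linter.all false

open MeasureTheory Filter Topology
open scoped SchwartzMap ComplexConjugate ENNReal ContDiff

namespace Vale.Agent.P352X.CK

open Vale.Agent.P352 Vale.Agent.P352.GF Vale.Agent.P352.BW Vale.Agent.P352.H246
open Vale.Agent.P352.H496 Vale.Agent.P352.H755 Vale.Agent.P352.H15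
open UniformSpace (Completion)
open Complex (I)

noncomputable section

namespace Uf

variable {D : Type*} [NormedAddCommGroup D] [InnerProductSpace ℂ D] [GrD D] {c : CtxZ D}

lemma lw_monoZ {w : Completion D} {Λ Λ' : ℝ} (h : LwZ c w Λ) (e : Λ ≤ Λ') : LwZ c w Λ' :=
  ⟨h.dg, h.dp, h.dgp, h.n0.trans e, h.ng.trans e, h.np.trans e, h.ngp.trans e⟩

lemma pk_monoZ {k : ℕ} {w : Completion D} {Λ Λ' : ℝ} (h : PkZ c k w Λ) (e : Λ ≤ Λ') :
    PkZ c k w Λ' := ⟨h.1, fun j hj => (h.2 j hj).trans e⟩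

lemma Th_eqZ (g : GRPZ c) {f : Fn} (hf : IsTest f) : c.Th f =
    (2 : ℂ) • c.Tv (hk va vb f) - ∑ i, c.Tv (hk (ex i) (ex i) f) := by
  simp only [CtxZ.Th, CtxZ.Tv, g.trace f _ hf, Completion.coe_sub, Completion.coe_smul,
    Fin.sum_univ_two, Completion.coe_add]

lemma perp_ThZ (g : GRPZ c) {f : Fn} (hf : IsTest f) : inner ℂ c.Om (c.Th f) = 0 := by
  simp only [Th_eqZ g hf, inner_sub_right, inner_smul_right, inner_sum, Far.perp_TvZ g _ _ hf,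
    mul_zero, Finset.sum_const_zero, sub_zero]

/-- the trace on slabs is in the domain of `K` -/
lemma slabZ (g : GRPZ c) (kd : KDZ c) {b1 b2 : ℝ} (h : b2 < 0 ∨ 0 < b1) :
    ∃ (m : ℕ) (C : ℝ), 0 ≤ C ∧ ∀ f : Sch, tsupport f ⊆ {z | b1 ≤ be z ∧ be z ≤ b2} →
      Dm c.SK (c.Th (ev f)) ∧ ‖gen c.SK (c.Th (ev f))‖ ≤ C * sn m f := by
  obtain ⟨m, C, hC⟩ := kd.slab b1 b2 h
  refine ⟨m, |C| * (2 * ‖va‖ * ‖vb‖ + ∑ i, ‖ex i‖ * ‖ex i‖), by positivity, fun f hf => ?_⟩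
  have h1 := ((hC va vb f hf).1.gn.smul 2).sub
    (Gn.sum Finset.univ fun i _ => (hC (ex i) (ex i) f hf).1.gn)
  rw [← Th_eqZ g ⟨f, rfl⟩] at h1
  refine ⟨h1.dm, ?_⟩
  have h0 := Lie.sn_nonneg m f
  have h2 : ∀ h k, ‖gen c.SK (c.Tv (hk h k (ev f)))‖ ≤ |C| * ‖h‖ * ‖k‖ * sn m f := fun h k =>
    (hC h k f hf).2.2.1.trans (by gcongr; exact le_abs_self _)
  rw [h1.gen_eq]
  refine (norm_sub_le _ _).trans ?_
  have h3 := h2 va vb
  have h4 := h2 (ex 0) (ex 0)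
  have h5 := h2 (ex 1) (ex 1)
  have h6 := norm_add_le (gen c.SK (c.Tv (hk (ex 0) (ex 0) (ev f))))
    (gen c.SK (c.Tv (hk (ex 1) (ex 1) (ev f))))
  simp only [norm_smul, Complex.norm_ofNat, Fin.sum_univ_two]
  linarith

end Uf

open Uf

variable {D : Type*} [NormedAddCommGroup D] [InnerProductSpace ℂ D] [GrD D]

/-- **row CK.uf** -/
theorem uf_rowZ (c : CtxZ D) (t : ToolsZ c) (ub : UBZ c) : UFZ c := by
  intro w W κ f ρ θ1 θ a0 u0 b1 d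
  obtain ⟨k, m, C, δ0, hC, hδ0, hub⟩ := ub w W κ f ρ θ1 θ a0 u0 d
  obtain ⟨m1, C1, hC1, h1⟩ := t.lwf.pk k
  obtain ⟨m2, C2, hC2, h2⟩ := t.lwf.two
  obtain ⟨m3, C3, hC3, h3⟩ := slabZ t.grp t.kd (b1 := b1) (b2 := -u0) (Or.inl (by linarith [d.hu]))
  have hF : ∀ j, IsTest (pr (wt (pol j) f) θ1) := fun j =>
    Far.isTest_dc (Far.dc_pr (tst_wt (smooth_pol j) d.tf) d.t1)
  choose F hF using hF
  obtain ⟨S, hS⟩ : ∃ S : ℝ, S = ∑ j, sn m2 (F j) := ⟨_, rfl⟩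
  have hS1 : ∀ j, sn m2 (F j) ≤ S := fun j => hS ▸ Finset.single_le_sum
    (f := fun j => sn m2 (F j)) (fun j _ => Lie.sn_nonneg _ _) (Finset.mem_univ j)
  have hS0 : 0 ≤ S := (Lie.sn_nonneg _ _).trans (hS1 0)
  refine ⟨m + m1 + m2 + m3, C * (C1 + C2 * S + C3), δ0, by positivity, hδ0,
    fun a g δ L ha hg hδ hδ1 hL => ?_⟩
  obtain ⟨N, hN⟩ : ∃ N : ℝ, N = sn (m + m1 + m2 + m3) g := ⟨_, rfl⟩
  have n1 : sn m1 g ≤ N := hN ▸ Lie.sn_mono (by omega) g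
  have n2 : sn m2 g ≤ N := hN ▸ Lie.sn_mono (by omega) g
  have n3 : sn m3 g ≤ N := hN ▸ Lie.sn_mono (by omega) g
  have n0 : 0 ≤ N := (Lie.sn_nonneg _ _).trans n1
  have p1 : 0 ≤ C1 * N := by positivity
  have p2 : 0 ≤ C2 * S * N := by positivity
  have p3 : 0 ≤ C3 * N := by positivity
  obtain ⟨k1, k2⟩ := h3 g fun z hz => ⟨(hg.2.2 hz).1, (hg.2.2 hz).2.1⟩
  have hdk : DKZ c (c.Th (ev g)) :=
    ⟨k1, fun i => (t.gen.mith i _ hg.1).dm, (t.gen.uth va _ hg.1).dm⟩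
  refine ⟨hdk, ?_⟩
  obtain ⟨g', hg', hs'⟩ := sn_bar m2 g
  have k3 := hub a _ _ _ ((C1 + C2 * S + C3) * N) δ L ha (perp_ThZ t.grp hg.1)
    (pk_monoZ (h1 g) (by nlinarith [mul_le_mul_of_nonneg_left n1 hC1])) hdk
    (k2.trans (by nlinarith [mul_le_mul_of_nonneg_left n3 hC3]))
    (t.tri.fld f θ1 a u0 (ev g) d.tf d.t1 (in_mono hg fun z hz => hz.2)) (fun j => by
      rw [← hF j, ← hg']
      have e1 : C2 * sn m2 (F j) * sn m2 g ≤ C2 * S * N := by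
        have := Lie.sn_nonneg m2 g
        gcongr
        exact hS1 j
      have e2 : C2 * sn m2 g' * sn m2 (F j) ≤ C2 * N * S := by
        have := Lie.sn_nonneg m2 (F j)
        gcongr
        exacts [hs'.trans n2, hS1 j]
      exact ⟨lw_monoZ (h2 (F j) g) (by linarith), lw_monoZ (h2 g' (F j)) (by linarith)⟩) hδ hδ1 hL
  rw [← hN]
  refine k3.trans ?_
  have e3 : a ^ m ≤ a ^ (m + m1 + m2 + m3) := pow_le_pow_right₀ ha (by omega)
  calc C * a ^ m * ((C1 + C2 * S + C3) * N) ≤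
        C * a ^ (m + m1 + m2 + m3) * ((C1 + C2 * S + C3) * N) := by gcongr
    _ = _ := by ring

end

end Vale.Agent.P352X.CK
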